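import Vale.Agent.Lib.P113.ApproxLemmas

namespace Vale.Agent.Lib.P113
open Finset

theorem qAcc_pos (q : Query) : 0 < qAcc q := by
  unfold qAcc; positivity

theorem approx_correct (M : Machine) (w : List ℕ) (q : Query) :
    |ratVal (approx M w q) - mixedDeriv (fField (theta M w)) q| ≤ qAcc q := by
  obtain ⟨dirs, comp, ⟨ta, tb⟩, xs, ⟨e1, e2⟩⟩ := q
  have hacc := qAcc_pos (dirs, comp, (ta, tb), xs, (e1, e2))
  rw [mixedDeriv_fField]
  unfold approx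
  simp only
  have ht : qTime (dirs, comp, (ta, tb), xs, (e1, e2)) = (ta : ℝ) / (tb + 1) := rfl
  rw [ht]
  by_cases hc : (∀ d ∈ dirs, d = 0) ∧ comp = 0 ∧ ta < tb + 1
  · obtain ⟨h1, h2, h3⟩ := hc
    rw [if_pos ⟨h1, h2, h3⟩, if_pos ⟨h1, h2⟩]
    have hxb : 0 < tb + 1 - ta := by omega
    have hxbr : ((tb + 1 - ta : ℕ) : ℝ) = (tb : ℝ) + 1 - ta := by
      rw [Nat.cast_sub h3.le]; push_cast; ring
    have hxbpos : (0 : ℝ) < (tb : ℝ) + 1 - ta := by rw [← hxbr]; exact_mod_cast hxb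
    have htb : (0 : ℝ) < (tb : ℝ) + 1 := by positivity
    have hs : 1 - (ta : ℝ) / (tb + 1) = ((tb : ℝ) + 1 - ta) / (tb + 1) := by field_simp
    have hspos : 0 < 1 - (ta : ℝ) / (tb + 1) := by rw [hs]; positivity
    have hinv : (1 - (ta : ℝ) / (tb + 1))⁻¹ = ((tb + 1 : ℕ) : ℝ) / ((tb + 1 - ta : ℕ) : ℝ) := by
      rw [hs, hxbr, inv_div]; push_cast; rfl
    rw [qfun_of_pos _ hspos, hinv]
    obtain ⟨j, hj⟩ : ∃ j, j = dirs.length := ⟨_, rfl⟩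
    rw [← hj]
    obtain ⟨xa, hxa⟩ : ∃ xa, xa = tb + 1 := ⟨_, rfl⟩
    obtain ⟨xb, hxbdef⟩ : ∃ xb, xb = tb + 1 - ta := ⟨_, rfl⟩
    rw [← hxbdef, ← hxa]
    have hxbp : 0 < xb := by omega
    have hxb1 : (1 : ℝ) ≤ xb := by exact_mod_cast hxbp
    have hxa0 : (0 : ℝ) ≤ xa := Nat.cast_nonneg _
    obtain ⟨K, hK⟩ : ∃ K, K = kOf j ta tb e2 := ⟨_, rfl⟩
    obtain ⟨N, hN⟩ : ∃ N, N = nOf j ta tb e2 := ⟨_, rfl⟩
    obtain ⟨sp, hsp⟩ : ∃ sp, sp = spOf j ta tb := ⟨_, rfl⟩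
    obtain ⟨sm, hsm⟩ : ∃ sm, sm = smOf j ta tb := ⟨_, rfl⟩
    rw [← hK, ← hN, ← hsp, ← hsm]
    have hKval : K = 2 * (sp + sm) * (e2 + 1) := by rw [hK, hsp, hsm]; rfl
    have hNval : N = K * xa ^ 2 + xa + 1 := by rw [hN, hK, hxa]; rfl
    have hNpos : 0 < N := by omega
    have hspv : sp = psum (j + 2) xa xb (j % 2) := by rw [hsp, hxa, hxbdef]; rfl
    have hsmv : sm = psum (j + 2) xa xb ((j + 1) % 2) := by rw [hsm, hxa, hxbdef]; rfl
    rw [ratVal_out _ _ _ _ _ _ _ _ hxbp hNpos]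
    have hP := psum_diff (j + 2) xa xb j hxbp
    rw [← hspv, ← hsmv] at hP
    have hPabs := psum_abs (j + 2) xa xb j hxbp
    rw [← hspv, ← hsmv] at hPabs
    have hval : theta M w * ((-1) ^ j * ((∑ m ∈ range (2 * (j + 2) + 1),
        (-1) ^ m * (dcoef (j + 2) m : ℝ) * ((xa : ℝ) / xb) ^ m) * Real.exp (-((xa : ℝ) / xb)))) =
        theta M w * ((((sp : ℝ) - sm) / (xb : ℝ) ^ (2 * (j + 2))) * Real.exp (-((xa : ℝ) / xb))) := by
      rw [hP]; ring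
    rw [hval]
    have hx0 : (0 : ℝ) ≤ (xa : ℝ) / xb := by positivity
    have hxle : (xa : ℝ) / xb ≤ xa := div_le_self hxa0 hxb1
    have hNr : (N : ℝ) = K * (xa : ℝ) ^ 2 + xa + 1 := by rw [hNval]; push_cast; ring
    have hK0 : (0 : ℝ) ≤ K := Nat.cast_nonneg _
    have hxN : (xa : ℝ) / xb ≤ N := by
      rw [hNr]
      have : (0 : ℝ) ≤ K * (xa : ℝ) ^ 2 := by positivity
      linarith
    obtain ⟨hE1, hE2, hE3⟩ := exp_approx ((xa : ℝ) / xb) N hx0 hxN hNpos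
    have hNrpos : (0 : ℝ) < N := by exact_mod_cast hNpos
    have hB0 : (0 : ℝ) ≤ (sp : ℝ) + sm := by positivity
    have hKr : (K : ℝ) = 2 * ((sp : ℝ) + sm) * (e2 + 1) := by rw [hKval]; push_cast; ring
    have hE' : (0 : ℝ) < (e2 : ℝ) + 1 := by positivity
    have key := core_bound (theta M w) ((hsum M w K : ℝ) / 4 ^ (K + 1))
      (((sp : ℝ) - sm) / (xb : ℝ) ^ (2 * (j + 2))) ((sp : ℝ) + sm)
      (((1 + ((xa : ℝ) / xb) / N)⁻¹) ^ N) (Real.exp (-((xa : ℝ) / xb))) (((xa : ℝ) / xb) ^ 2 / N)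
      ((1 / 4 : ℝ) ^ (K + 1)) ((e2 : ℝ) + 1)
      (theta_nonneg M w) (theta_le_one M w) (theta_lower M w K) (theta_upper M w K) hPabs hE1 hE2
      (by positivity) hE3 ?_ ?_ hE'
    · refine le_trans key ?_
      unfold qAcc
      simp only
      apply div_le_div_of_nonneg_right _ hE'.le
      have : (0 : ℝ) ≤ e1 := Nat.cast_nonneg _
      linarith
    · -- B * (1/4)^(K+1) ≤ 1/(2E')
      have h4 : (K : ℝ) + 1 ≤ 4 ^ (K + 1) := by
        have : K + 1 < 4 ^ (K + 1) := Nat.lt_pow_self (by norm_num)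
        exact_mod_cast this.le
      have h5 : (1 / 4 : ℝ) ^ (K + 1) ≤ 1 / ((K : ℝ) + 1) := by
        rw [one_div_pow]
        exact one_div_le_one_div_of_le (by positivity) h4
      calc ((sp : ℝ) + sm) * (1 / 4 : ℝ) ^ (K + 1) ≤ ((sp : ℝ) + sm) * (1 / ((K : ℝ) + 1)) :=
            mul_le_mul_of_nonneg_left h5 hB0
        _ ≤ 1 / (2 * ((e2 : ℝ) + 1)) := by
            rw [hKr]
            rw [mul_one_div, div_le_div_iff₀ (by positivity) (by positivity)]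
            nlinarith
    · -- B * (x^2/N) ≤ 1/(2E')
      have hx2 : ((xa : ℝ) / xb) ^ 2 ≤ (xa : ℝ) ^ 2 := pow_le_pow_left₀ hx0 hxle 2
      rw [← mul_div_assoc, div_le_div_iff₀ hNrpos (by positivity), hNr, hKr]
      have hxa2 : (0 : ℝ) ≤ (xa : ℝ) ^ 2 := by positivity
      have h7 : ((sp : ℝ) + sm) * ((xa : ℝ) / xb) ^ 2 * (2 * ((e2 : ℝ) + 1)) ≤
          ((sp : ℝ) + sm) * (xa : ℝ) ^ 2 * (2 * ((e2 : ℝ) + 1)) := by
        apply mul_le_mul_of_nonneg_right _ (by positivity)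
        exact mul_le_mul_of_nonneg_left hx2 hB0
      have h8 : ((sp : ℝ) + sm) * (xa : ℝ) ^ 2 * (2 * ((e2 : ℝ) + 1)) =
          2 * ((sp : ℝ) + sm) * ((e2 : ℝ) + 1) * (xa : ℝ) ^ 2 := by ring
      linarith
  · rw [if_neg hc]
    have hr : ratVal ((0, 0, 0) : ℕ × ℕ × ℕ) = 0 := by simp [ratVal]
    rw [hr]
    by_cases h12 : (∀ d ∈ dirs, d = 0) ∧ comp = 0
    · rw [if_pos h12]
      have h3 : tb + 1 ≤ ta := by
        by_contra hh
        exact hc ⟨h12.1, h12.2, by omega⟩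
      have h3r : (tb : ℝ) + 1 ≤ ta := by exact_mod_cast h3
      have hs : 1 - (ta : ℝ) / (tb + 1) ≤ 0 := by
        have : (1 : ℝ) ≤ (ta : ℝ) / (tb + 1) := by
          rw [le_div_iff₀ (by positivity)]; linarith
        linarith
      rw [qfun_of_nonpos _ hs]
      simp [hacc.le]
    · rw [if_neg h12]
      simp [hacc.le]

end Vale.Agent.Lib.P113
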