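import Mathlib

namespace Vale.Agent.Lib.P113
open Polynomial

/-- coefficient lists of the derivative polynomials (absolute values) -/
def dl : ℕ → List ℕ
  | 0 => [1]
  | n + 1 => 0 :: 0 :: (List.range (dl n).length).map
      (fun m => (dl n).getD m 0 + (m + 1) * (dl n).getD (m + 1) 0)

def dcoef (n m : ℕ) : ℕ := (dl n).getD m 0

theorem dl_length (n : ℕ) : (dl n).length = 2 * n + 1 := by
  induction n with
  | zero => simp [dl]
  | succ n ih => simp [dl, ih]; ring

theorem dcoef_eq_zero (n m : ℕ) (h : 2 * n < m) : dcoef n m = 0 := by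
  unfold dcoef
  rw [List.getD_eq_getElem?_getD, List.getElem?_eq_none]
  · rfl
  · rw [dl_length]; omega

theorem dcoef_zero (m : ℕ) : dcoef 0 m = if m = 0 then 1 else 0 := by
  unfold dcoef
  cases m with
  | zero => simp [dl]
  | succ m => simp [dl]

theorem dcoef_succ_lt (n k : ℕ) (h : k < 2) : dcoef (n + 1) k = 0 := by
  unfold dcoef
  interval_cases k <;> simp [dl]

theorem dcoef_succ_succ (n k : ℕ) :
    dcoef (n + 1) (k + 2) = dcoef n k + (k + 1) * dcoef n (k + 1) := by
  by_cases hk : k < 2 * n + 1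
  · unfold dcoef
    simp only [dl, List.getD_cons_succ]
    rw [List.getD_eq_getElem?_getD, List.getElem?_map, List.getElem?_range (by rw [dl_length]; exact hk)]
    simp
  · have h1 : dcoef n k = 0 := dcoef_eq_zero n k (by omega)
    have h2 : dcoef n (k + 1) = 0 := dcoef_eq_zero n (k + 1) (by omega)
    rw [h1, h2]
    unfold dcoef
    simp only [dl, List.getD_cons_succ]
    rw [List.getD_eq_getElem?_getD, List.getElem?_eq_none]
    · simp
    · simp [dl_length]; omega

/-- the derivative polynomials -/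
noncomputable def Pn : ℕ → ℝ[X]
  | 0 => 1
  | n + 1 => X ^ 2 * (Pn n - derivative (Pn n))

theorem Pn_coeff (n m : ℕ) : (Pn n).coeff m = (-1) ^ m * (dcoef n m : ℝ) := by
  induction n generalizing m with
  | zero =>
    simp only [Pn, dcoef_zero, coeff_one]
    by_cases hm : m = 0 <;> simp [hm]
  | succ n ih =>
    simp only [Pn, coeff_X_pow_mul', coeff_sub, coeff_derivative]
    by_cases hm : 2 ≤ m
    · obtain ⟨k, rfl⟩ : ∃ k, m = k + 2 := ⟨m - 2, by omega⟩
      simp only [hm, if_true, Nat.add_sub_cancel, ih, dcoef_succ_succ]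
      push_cast
      ring
    · simp only [hm, if_false]
      rw [dcoef_succ_lt n m (by omega)]
      simp

theorem Pn_natDegree (n : ℕ) : (Pn n).natDegree ≤ 2 * n := by
  rw [natDegree_le_iff_coeff_eq_zero]
  intro m hm
  rw [Pn_coeff, dcoef_eq_zero n m hm]
  simp

theorem Pn_eval (n : ℕ) (y : ℝ) :
    (Pn n).eval y = ∑ m ∈ Finset.range (2 * n + 1), (-1) ^ m * (dcoef n m : ℝ) * y ^ m := by
  rw [eval_eq_sum_range' (Nat.lt_succ_of_le (Pn_natDegree n))]
  apply Finset.sum_congr rfl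
  intro m _
  rw [Pn_coeff]

/-- the functions `P_n (1/s) * exp (-1/s)`, the derivatives of the flat function -/
noncomputable def qfun (n : ℕ) (s : ℝ) : ℝ := (Pn n).eval s⁻¹ * expNegInvGlue s

theorem qfun_hasDerivAt (n : ℕ) (s : ℝ) : HasDerivAt (qfun n) (qfun (n + 1) s) s :=
  expNegInvGlue.hasDerivAt_polynomial_eval_inv_mul (Pn n) s

theorem qfun_contDiff (n : ℕ) : ContDiff ℝ (⊤ : ℕ∞) (qfun n) :=
  expNegInvGlue.contDiff_polynomial_eval_inv_mul (Pn n)

theorem qfun_of_nonpos (n : ℕ) {s : ℝ} (hs : s ≤ 0) : qfun n s = 0 := by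
  simp [qfun, expNegInvGlue.zero_of_nonpos hs]

theorem qfun_zero (s : ℝ) : qfun 0 s = expNegInvGlue s := by simp [qfun, Pn]

theorem qfun_one_one : qfun 1 1 = expNegInvGlue 1 := by simp [qfun, Pn]

theorem qfun_of_pos (n : ℕ) {s : ℝ} (hs : 0 < s) :
    qfun n s = (∑ m ∈ Finset.range (2 * n + 1), (-1) ^ m * (dcoef n m : ℝ) * s⁻¹ ^ m) *
      Real.exp (-s⁻¹) := by
  simp [qfun, Pn_eval, expNegInvGlue, not_le.2 hs]

/-- velocity profile -/
noncomputable def velP (t : ℝ) : ℝ := qfun 1 1 - qfun 1 (1 - t)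
/-- force profile -/
noncomputable def forceP (t : ℝ) : ℝ := qfun 2 (1 - t)
/-- trajectory profile -/
noncomputable def trajP (t : ℝ) : ℝ := qfun 0 (1 - t) - qfun 0 1 + qfun 1 1 * t

theorem qfun_comp_hasDerivAt (n : ℕ) (t : ℝ) :
    HasDerivAt (fun t => qfun n (1 - t)) (-qfun (n + 1) (1 - t)) t := by
  have h : HasDerivAt (fun t => qfun n (1 - t)) (qfun (n + 1) (1 - t) * (-1)) t :=
    (qfun_hasDerivAt n (1 - t)).comp t ((hasDerivAt_id t).const_sub 1)
  rw [mul_neg_one] at h
  exact h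

theorem velP_hasDerivAt (t : ℝ) : HasDerivAt velP (forceP t) t := by
  have h : HasDerivAt (fun t => qfun 1 1 - qfun 1 (1 - t)) (- -qfun 2 (1 - t)) t :=
    (qfun_comp_hasDerivAt 1 t).const_sub (qfun 1 1)
  rw [neg_neg] at h
  exact h

theorem trajP_hasDerivAt (t : ℝ) : HasDerivAt trajP (velP t) t := by
  have h : HasDerivAt (fun t => qfun 0 (1 - t) - qfun 0 1 + qfun 1 1 * t)
      (-qfun 1 (1 - t) + qfun 1 1 * 1) t :=
    ((qfun_comp_hasDerivAt 0 t).sub_const (qfun 0 1)).add ((hasDerivAt_id t).const_mul (qfun 1 1))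
  have e : -qfun 1 (1 - t) + qfun 1 1 * 1 = velP t := by unfold velP; ring
  rw [e] at h
  exact h

theorem velP_zero : velP 0 = 0 := by simp [velP]
theorem trajP_zero : trajP 0 = 0 := by simp [trajP]

theorem forceP_of_ge {t : ℝ} (ht : 1 ≤ t) : forceP t = 0 := qfun_of_nonpos 2 (by linarith)

theorem trajP_of_ge {t : ℝ} (ht : 1 ≤ t) : trajP t = expNegInvGlue 1 * (t - 1) := by
  simp only [trajP, qfun_of_nonpos 0 (show 1 - t ≤ 0 by linarith), qfun_zero, qfun_one_one]
  ring

theorem velP_contDiff : ContDiff ℝ (⊤ : ℕ∞) velP := by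
  unfold velP
  exact contDiff_const.sub ((qfun_contDiff 1).comp (contDiff_const.sub contDiff_id))

theorem forceP_contDiff : ContDiff ℝ (⊤ : ℕ∞) forceP := by
  unfold forceP
  exact (qfun_contDiff 2).comp (contDiff_const.sub contDiff_id)

theorem iteratedDeriv_forceP (n : ℕ) :
    iteratedDeriv n forceP = fun t => (-1) ^ n * qfun (n + 2) (1 - t) := by
  induction n with
  | zero => rw [iteratedDeriv_zero]; funext t; simp [forceP]
  | succ n ih =>
    rw [iteratedDeriv_succ, ih]
    funext t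
    have h := (qfun_comp_hasDerivAt (n + 2) t).const_mul ((-1 : ℝ) ^ n)
    rw [h.deriv]
    ring

end Vale.Agent.Lib.P113
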