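import Vale.Agent.Lib.P113.QueryDefs
import Vale.Agent.Lib.P113.Profile

namespace Vale.Agent.Lib.P113

/-- The state after `n` steps on input `w` is halting. -/
def haltedAt (M : Machine) (w : List ℕ) (n : ℕ) : Prop :=
  ((step M)^[n] (0, [], w)).1 ∈ M.2

instance (M : Machine) (w : List ℕ) : DecidablePred (haltedAt M w) := fun n => by
  unfold haltedAt; infer_instance

theorem halts_iff (M : Machine) (w : List ℕ) : Halts M w ↔ ∃ n, haltedAt M w n := Iff.rfl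

/-- numerator of the `K`-th approximation of the amplitude, over `4 ^ (K + 1)` -/
def hsum (M : Machine) (w : List ℕ) (K : ℕ) : ℕ :=
  ((List.range (K + 1)).map (fun i => if haltedAt M w i then 4 ^ (K - i) else 0)).sum

/-- numerators of the two sign classes of the derivative polynomial at `xa / xb` -/
def psum (n xa xb par : ℕ) : ℕ :=
  ((List.range (2 * n + 1)).map
    (fun m => if m % 2 = par then dcoef n m * xa ^ m * xb ^ (2 * n - m) else 0)).sum

def spOf (j ta tb : ℕ) : ℕ := psum (j + 2) (tb + 1) (tb + 1 - ta) (j % 2)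
def smOf (j ta tb : ℕ) : ℕ := psum (j + 2) (tb + 1) (tb + 1 - ta) ((j + 1) % 2)
def kOf (j ta tb e2 : ℕ) : ℕ := 2 * (spOf j ta tb + smOf j ta tb) * (e2 + 1)
def nOf (j ta tb e2 : ℕ) : ℕ := kOf j ta tb e2 * (tb + 1) ^ 2 + (tb + 1) + 1

/-- the output triple -/
def approxOut (h sp sm K N xa xb j : ℕ) : ℕ × ℕ × ℕ :=
  (h * sp * (N * xb) ^ N, h * sm * (N * xb) ^ N,
    4 ^ (K + 1) * xb ^ (2 * (j + 2)) * (N * xb + xa) ^ N - 1)

/-- the approximation algorithm -/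
def approx (M : Machine) (w : List ℕ) (q : Query) : ℕ × ℕ × ℕ :=
  if (∀ d ∈ q.1, d = 0) ∧ q.2.1 = 0 ∧ q.2.2.1.1 < q.2.2.1.2 + 1 then
    approxOut (hsum M w (kOf q.1.length q.2.2.1.1 q.2.2.1.2 q.2.2.2.2.2))
      (spOf q.1.length q.2.2.1.1 q.2.2.1.2) (smOf q.1.length q.2.2.1.1 q.2.2.1.2)
      (kOf q.1.length q.2.2.1.1 q.2.2.1.2 q.2.2.2.2.2)
      (nOf q.1.length q.2.2.1.1 q.2.2.1.2 q.2.2.2.2.2)
      (q.2.2.1.2 + 1) (q.2.2.1.2 + 1 - q.2.2.1.1) q.1.length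
  else (0, 0, 0)

end Vale.Agent.Lib.P113
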