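import Vale.Agent.Lib.P113.ApproxDef

namespace Vale.Agent.Lib.P113
open Finset

/-- the `n`-th term of the amplitude series -/
noncomputable def thetaTerm (M : Machine) (w : List ℕ) (n : ℕ) : ℝ :=
  if haltedAt M w n then (1 / 4 : ℝ) ^ (n + 1) else 0

/-- the amplitude: positive exactly when the machine halts -/
noncomputable def theta (M : Machine) (w : List ℕ) : ℝ := ∑' n, thetaTerm M w n

theorem thetaTerm_nonneg (M : Machine) (w : List ℕ) (n : ℕ) : 0 ≤ thetaTerm M w n := by
  unfold thetaTerm; split_ifs <;> positivity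

theorem thetaTerm_le (M : Machine) (w : List ℕ) (n : ℕ) :
    thetaTerm M w n ≤ (1 / 4 : ℝ) ^ (n + 1) := by
  unfold thetaTerm; split_ifs
  · exact le_rfl
  · positivity

theorem geo_summable : Summable (fun n : ℕ => (1 / 4 : ℝ) ^ (n + 1)) := by
  have h := summable_geometric_of_lt_one (r := (1 / 4 : ℝ)) (by norm_num) (by norm_num)
  exact (summable_nat_add_iff 1).2 h

theorem thetaTerm_summable (M : Machine) (w : List ℕ) : Summable (thetaTerm M w) :=
  Summable.of_nonneg_of_le (thetaTerm_nonneg M w) (thetaTerm_le M w) geo_summable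

theorem theta_nonneg (M : Machine) (w : List ℕ) : 0 ≤ theta M w :=
  tsum_nonneg (thetaTerm_nonneg M w)

theorem theta_pos_iff (M : Machine) (w : List ℕ) : 0 < theta M w ↔ Halts M w := by
  constructor
  · intro h
    by_contra hn
    have : ∀ n, thetaTerm M w n = 0 := by
      intro n
      unfold thetaTerm
      rw [if_neg]
      intro hh
      exact hn ⟨n, hh⟩
    have h0 : theta M w = 0 := by
      unfold theta
      simp [this]
    linarith
  · rintro ⟨n, hn⟩
    apply (thetaTerm_summable M w).tsum_pos (thetaTerm_nonneg M w) n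
    unfold thetaTerm
    have hn' : haltedAt M w n := hn
    rw [if_pos hn']
    positivity

theorem list_sum_range (f : ℕ → ℕ) (n : ℕ) : ((List.range n).map f).sum = ∑ i ∈ range n, f i := by
  induction n with
  | zero => simp
  | succ n ih => rw [List.range_succ, List.map_append, List.sum_append, ih, sum_range_succ]; simp

theorem hsum_cast (M : Machine) (w : List ℕ) (K : ℕ) :
    (hsum M w K : ℝ) / 4 ^ (K + 1) = ∑ i ∈ range (K + 1), thetaTerm M w i := by
  unfold hsum
  rw [list_sum_range]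
  push_cast
  rw [sum_div]
  apply sum_congr rfl
  intro i hi
  have hi' : i ≤ K := by simpa [Nat.lt_succ_iff] using hi
  unfold thetaTerm
  split_ifs
  · have : (4 : ℝ) ^ (K + 1) = 4 ^ (K - i) * 4 ^ (i + 1) := by
      rw [← pow_add]; congr 1; omega
    rw [this]
    field_simp
    rw [← mul_pow]; norm_num
  · simp

theorem theta_split (M : Machine) (w : List ℕ) (K : ℕ) :
    theta M w = (hsum M w K : ℝ) / 4 ^ (K + 1) + ∑' i, thetaTerm M w (i + (K + 1)) := by
  rw [hsum_cast]
  exact ((thetaTerm_summable M w).sum_add_tsum_nat_add (K + 1)).symm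

theorem theta_lower (M : Machine) (w : List ℕ) (K : ℕ) :
    (hsum M w K : ℝ) / 4 ^ (K + 1) ≤ theta M w := by
  rw [theta_split M w K]
  have : 0 ≤ ∑' i, thetaTerm M w (i + (K + 1)) := tsum_nonneg fun i => thetaTerm_nonneg M w _
  linarith

theorem theta_upper (M : Machine) (w : List ℕ) (K : ℕ) :
    theta M w - (hsum M w K : ℝ) / 4 ^ (K + 1) ≤ (1 / 4 : ℝ) ^ (K + 1) := by
  rw [theta_split M w K]
  have hs : Summable (fun i : ℕ => (1 / 4 : ℝ) ^ (K + 2) * (1 / 4 : ℝ) ^ i) :=
    (summable_geometric_of_lt_one (r := (1 / 4 : ℝ)) (by norm_num) (by norm_num)).mul_left _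
  have h1 : ∑' i, thetaTerm M w (i + (K + 1)) ≤ ∑' i : ℕ, (1 / 4 : ℝ) ^ (K + 2) * (1 / 4 : ℝ) ^ i := by
    apply Summable.tsum_le_tsum _ ((summable_nat_add_iff (K + 1)).2 (thetaTerm_summable M w)) hs
    intro i
    have := thetaTerm_le M w (i + (K + 1))
    have e : (1 / 4 : ℝ) ^ (i + (K + 1) + 1) = (1 / 4 : ℝ) ^ (K + 2) * (1 / 4 : ℝ) ^ i := by
      rw [← pow_add]; congr 1; omega
    rw [e] at this
    exact this
  rw [tsum_mul_left, tsum_geometric_of_lt_one (by norm_num) (by norm_num)] at h1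
  have e2 : (1 / 4 : ℝ) ^ (K + 2) * (1 - 1 / 4)⁻¹ = (1 / 4 : ℝ) ^ (K + 1) * (1 / 3) := by
    rw [pow_succ]; norm_num; ring
  rw [e2] at h1
  have hp : 0 ≤ (1 / 4 : ℝ) ^ (K + 1) := by positivity
  linarith

theorem theta_le_one (M : Machine) (w : List ℕ) : theta M w ≤ 1 := by
  have h := theta_upper M w 0
  have h2 : (hsum M w 0 : ℝ) / 4 ^ (0 + 1) ≤ 1 / 4 := by
    unfold hsum
    simp only [zero_add, List.range_one, List.map_cons, List.map_nil, List.sum_cons, List.sum_nil]
    split_ifs <;> norm_num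
  norm_num at h
  linarith

end Vale.Agent.Lib.P113
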