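import Vale.Agent.Lib.P113.Construct
import Vale.Agent.Lib.P113.Theta

namespace Vale.Agent.Lib.P113
open Finset


theorem exp_approx (x : ℝ) (N : ℕ) (hx : 0 ≤ x) (hN : x ≤ N) (hN0 : 0 < N) :
    Real.exp (-x) ≤ ((1 + x / N)⁻¹) ^ N ∧ ((1 + x / N)⁻¹) ^ N ≤ 1 ∧
      ((1 + x / N)⁻¹) ^ N - Real.exp (-x) ≤ x ^ 2 / N := by
  have hNr : (0 : ℝ) < N := by exact_mod_cast hN0
  obtain ⟨y, hy⟩ : ∃ y : ℝ, y = x / N := ⟨_, rfl⟩
  have hy0 : 0 ≤ y := by rw [hy]; positivity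
  have hy1 : y ≤ 1 := by rw [hy, div_le_one hNr]; exact hN
  have hxy : x = N * y := by rw [hy]; field_simp
  rw [← hy]
  have h1 : (1 + y) ^ N ≤ Real.exp x := by
    have := pow_le_pow_left₀ (by linarith : (0 : ℝ) ≤ 1 + y) (by linarith [Real.add_one_le_exp y] : 1 + y ≤ Real.exp y) N
    rw [← Real.exp_nat_mul, ← hxy] at this
    exact this
  have hpos : (0 : ℝ) < (1 + y) ^ N := by positivity
  have hA : Real.exp (-x) ≤ ((1 + y)⁻¹) ^ N := by
    rw [inv_pow, Real.exp_neg]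
    exact inv_anti₀ hpos h1
  have hA1 : ((1 + y)⁻¹) ^ N ≤ 1 := by
    apply pow_le_one₀ (by positivity)
    exact inv_le_one_of_one_le₀ (by linarith)
  have hA0 : 0 ≤ ((1 + y)⁻¹) ^ N := by positivity
  have h3 : (1 - y) ^ N ≤ Real.exp (-x) := by
    have := pow_le_pow_left₀ (by linarith : (0 : ℝ) ≤ 1 - y) (Real.one_sub_le_exp_neg y) N
    rw [← Real.exp_nat_mul] at this
    have e : (N : ℝ) * -y = -x := by rw [hxy]; ring
    rw [e] at this
    exact this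
  have h4 : (1 - y) ^ N = (1 - y ^ 2) ^ N * ((1 + y)⁻¹) ^ N := by
    rw [← mul_pow]
    congr 1
    field_simp
    ring
  have h5 : 1 + (N : ℝ) * (-(y ^ 2)) ≤ (1 + -(y ^ 2)) ^ N :=
    one_add_mul_le_pow (by nlinarith) N
  have h6 : ((1 + y)⁻¹) ^ N - (1 - y) ^ N ≤ N * y ^ 2 := by
    rw [h4]
    have e : (1 + -(y ^ 2)) = 1 - y ^ 2 := by ring
    rw [e] at h5
    have hNy : 0 ≤ (N : ℝ) * y ^ 2 := by positivity
    nlinarith
  refine ⟨hA, hA1, ?_⟩
  have e2 : (N : ℝ) * y ^ 2 = x ^ 2 / N := by rw [hy]; field_simp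
  linarith

theorem core_bound (θ θK P B Et e x2N Kpow E' : ℝ)
    (hθ0 : 0 ≤ θ) (hθ1 : θ ≤ 1) (hθK : θK ≤ θ) (hθK' : θ - θK ≤ Kpow)
    (hP : |P| ≤ B) (hEt : e ≤ Et) (hEt1 : Et ≤ 1) (hEt0 : 0 ≤ Et) (hEt' : Et - e ≤ x2N)
    (h1 : B * Kpow ≤ 1 / (2 * E')) (h2 : B * x2N ≤ 1 / (2 * E')) (hE' : 0 < E') :
    |θK * P * Et - θ * (P * e)| ≤ 1 / E' := by
  have hB : 0 ≤ B := le_trans (abs_nonneg P) hP
  have e1 : θK * P * Et - θ * (P * e) = P * ((θK - θ) * Et + θ * (Et - e)) := by ring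
  rw [e1, abs_mul]
  have h3 : |(θK - θ) * Et + θ * (Et - e)| ≤ Kpow + x2N := by
    rw [abs_le]
    constructor
    · nlinarith
    · nlinarith
  have hsum : 0 ≤ Kpow + x2N := le_trans (abs_nonneg _) h3
  calc |P| * |(θK - θ) * Et + θ * (Et - e)| ≤ B * (Kpow + x2N) :=
        mul_le_mul hP h3 (abs_nonneg _) hB
    _ = B * Kpow + B * x2N := by ring
    _ ≤ 1 / (2 * E') + 1 / (2 * E') := add_le_add h1 h2
    _ = 1 / E' := by field_simp; ring



theorem mixedDeriv_fField (θ : ℝ) (q : Query) :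
    mixedDeriv (fField θ) q =
      if (∀ d ∈ q.1, d = 0) ∧ q.2.1 = 0 then
        θ * ((-1) ^ q.1.length * qfun (q.1.length + 2) (1 - qTime q)) else 0 := by
  have hφ : ContDiff ℝ (⊤ : ℕ∞) (fun s => θ * forceP s) := contDiff_const.mul forceP_contDiff
  have hF : (fun z : Fin 4 → ℝ => fField θ (Matrix.vecHead z) (Matrix.vecTail z)) =
      ⇑(ContinuousLinearMap.toSpanSingleton ℝ (Pi.single 0 1 : R3)) ∘
        ((fun s => θ * forceP s) ∘
          ⇑(ContinuousLinearMap.proj (R := ℝ) (φ := fun _ : Fin 4 => ℝ) 0)) := by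
    funext p
    simp [fField, ContinuousLinearMap.toSpanSingleton_apply, Matrix.vecHead]
  have hle : ((q.1.length : ℕ) : WithTop ℕ∞) ≤ ((⊤ : ℕ∞) : WithTop ℕ∞) := by
    exact_mod_cast le_top
  have hq0 : qPoint q 0 = qTime q := rfl
  unfold mixedDeriv
  rw [hF]
  rw [ContinuousLinearMap.iteratedFDeriv_comp_left _
    ((hφ.comp (ContinuousLinearMap.proj (R := ℝ) (φ := fun _ : Fin 4 => ℝ) 0).contDiff).contDiffAt)
    hle]
  rw [ContinuousLinearMap.iteratedFDeriv_comp_right _ hφ _ hle]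
  simp only [ContinuousLinearMap.compContinuousMultilinearMap_coe, Function.comp_apply,
    ContinuousMultilinearMap.compContinuousLinearMap_apply]
  rw [iteratedFDeriv_apply_eq_iteratedDeriv_mul_prod, iteratedDeriv_const_mul_field,
    iteratedDeriv_forceP]
  simp only [ContinuousLinearMap.proj_apply, ContinuousLinearMap.toSpanSingleton_apply,
    Pi.smul_apply, smul_eq_mul, Pi.single_apply, hq0]
  rw [Finset.prod_boole]
  have hiff : (∀ i ∈ (Finset.univ : Finset (Fin q.1.length)), (0 : Fin 4) = q.1.get i) ↔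
      ∀ d ∈ q.1, d = 0 := by
    constructor
    · intro h d hd
      obtain ⟨i, rfl⟩ := List.get_of_mem hd
      exact (h i (Finset.mem_univ i)).symm
    · intro h i _
      exact (h _ (List.get_mem _ _)).symm
  by_cases h1 : ∀ d ∈ q.1, d = 0
  · rw [if_pos (hiff.2 h1)]
    by_cases h2 : q.2.1 = 0
    · rw [if_pos h2, if_pos ⟨h1, h2⟩]; ring
    · rw [if_neg h2, if_neg (show ¬((∀ d ∈ q.1, d = 0) ∧ q.2.1 = 0) from fun h => h2 h.2)]; ring
  · rw [if_neg (fun h => h1 (hiff.1 h)),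
      if_neg (show ¬((∀ d ∈ q.1, d = 0) ∧ q.2.1 = 0) from fun h => h1 h.1)]
    ring

theorem sign_term (j m : ℕ) (c : ℝ) :
    (if m % 2 = j % 2 then c else 0) - (if m % 2 = (j + 1) % 2 then c else 0) = (-1) ^ (j + m) * c := by
  rcases Nat.even_or_odd j with hj | hj <;> rcases Nat.even_or_odd m with hm | hm
  · have h1 : m % 2 = j % 2 := by rw [Nat.even_iff] at hj hm; omega
    have h2 : ¬ m % 2 = (j + 1) % 2 := by rw [Nat.even_iff] at hj hm; omega
    rw [if_pos h1, if_neg h2, (hj.add hm).neg_one_pow]; ring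
  · have h1 : ¬ m % 2 = j % 2 := by rw [Nat.even_iff] at hj; rw [Nat.odd_iff] at hm; omega
    have h2 : m % 2 = (j + 1) % 2 := by rw [Nat.even_iff] at hj; rw [Nat.odd_iff] at hm; omega
    rw [if_neg h1, if_pos h2, (hj.add_odd hm).neg_one_pow]; ring
  · have h1 : ¬ m % 2 = j % 2 := by rw [Nat.even_iff] at hm; rw [Nat.odd_iff] at hj; omega
    have h2 : m % 2 = (j + 1) % 2 := by rw [Nat.even_iff] at hm; rw [Nat.odd_iff] at hj; omega
    rw [if_neg h1, if_pos h2, (hj.add_even hm).neg_one_pow]; ring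
  · have h1 : m % 2 = j % 2 := by rw [Nat.odd_iff] at hj hm; omega
    have h2 : ¬ m % 2 = (j + 1) % 2 := by rw [Nat.odd_iff] at hj hm; omega
    rw [if_pos h1, if_neg h2, (hj.add_odd hm).neg_one_pow]; ring

theorem psum_cast (n xa xb par : ℕ) : (psum n xa xb par : ℝ) =
    ∑ m ∈ range (2 * n + 1),
      if m % 2 = par then (dcoef n m : ℝ) * (xa : ℝ) ^ m * (xb : ℝ) ^ (2 * n - m) else 0 := by
  unfold psum
  rw [list_sum_range]
  push_cast
  apply sum_congr rfl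
  intro m _
  split_ifs <;> simp

theorem psum_diff (n xa xb j : ℕ) (hxb : 0 < xb) :
    ((psum n xa xb (j % 2) : ℝ) - psum n xa xb ((j + 1) % 2)) / (xb : ℝ) ^ (2 * n) =
      (-1) ^ j * ∑ m ∈ range (2 * n + 1), (-1) ^ m * (dcoef n m : ℝ) * ((xa : ℝ) / xb) ^ m := by
  have hx : (0 : ℝ) < xb := by exact_mod_cast hxb
  rw [psum_cast, psum_cast, ← sum_sub_distrib, sum_div, mul_sum]
  apply sum_congr rfl
  intro m hm
  have hm' : m ≤ 2 * n := by simpa [Nat.lt_succ_iff] using hm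
  rw [sign_term]
  have e : (xb : ℝ) ^ (2 * n) = (xb : ℝ) ^ (2 * n - m) * (xb : ℝ) ^ m := by
    rw [← pow_add]; congr 1; omega
  rw [e, div_pow, pow_add]
  field_simp

theorem psum_abs (n xa xb j : ℕ) (hxb : 0 < xb) :
    |((psum n xa xb (j % 2) : ℝ) - psum n xa xb ((j + 1) % 2)) / (xb : ℝ) ^ (2 * n)| ≤
      (psum n xa xb (j % 2) : ℝ) + psum n xa xb ((j + 1) % 2) := by
  have hx : (1 : ℝ) ≤ xb := by exact_mod_cast hxb
  have hp : (1 : ℝ) ≤ (xb : ℝ) ^ (2 * n) := one_le_pow₀ hx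
  have h1 : (0 : ℝ) ≤ psum n xa xb (j % 2) := Nat.cast_nonneg _
  have h2 : (0 : ℝ) ≤ psum n xa xb ((j + 1) % 2) := Nat.cast_nonneg _
  rw [abs_div, abs_of_pos (by linarith : (0 : ℝ) < (xb : ℝ) ^ (2 * n))]
  calc |(psum n xa xb (j % 2) : ℝ) - psum n xa xb ((j + 1) % 2)| / (xb : ℝ) ^ (2 * n)
      ≤ |(psum n xa xb (j % 2) : ℝ) - psum n xa xb ((j + 1) % 2)| := div_le_self (abs_nonneg _) hp
    _ ≤ (psum n xa xb (j % 2) : ℝ) + psum n xa xb ((j + 1) % 2) := by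
        rw [abs_le]; constructor <;> linarith

theorem ratVal_out (h sp sm K N xa xb j : ℕ) (hxb : 0 < xb) (hN : 0 < N) :
    ratVal (approxOut h sp sm K N xa xb j) =
      ((h : ℝ) / 4 ^ (K + 1)) * (((sp : ℝ) - sm) / (xb : ℝ) ^ (2 * (j + 2))) *
        ((1 + ((xa : ℝ) / xb) / N)⁻¹) ^ N := by
  have hx : (0 : ℝ) < xb := by exact_mod_cast hxb
  have hNr : (0 : ℝ) < N := by exact_mod_cast hN
  have hxa : (0 : ℝ) ≤ xa := Nat.cast_nonneg _
  have hden : 0 < 4 ^ (K + 1) * xb ^ (2 * (j + 2)) * (N * xb + xa) ^ N := by positivity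
  unfold ratVal approxOut
  simp only
  rw [Nat.cast_pred hden]
  push_cast
  have e1 : (1 + (xa : ℝ) / xb / N)⁻¹ = (N * xb) / (N * xb + xa) := by
    field_simp
  rw [e1, div_pow]
  have h3 : (0 : ℝ) < ((N : ℝ) * xb + xa) ^ N := by positivity
  field_simp
  ring

end Vale.Agent.Lib.P113
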