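import Vale.Agent.Lib.P113.QueryDefs

namespace Vale.Agent.Lib.P113
open Set

theorem vec_eq_sum (y : R3) : y = ∑ j, y j • (Pi.single j (1 : ℝ) : R3) := by
  ext l
  simp [Finset.sum_apply, Pi.single_apply]

theorem clm_apply_eq_sum {E : Type} [NormedAddCommGroup E] [NormedSpace ℝ E]
    (L : R3 →L[ℝ] E) (y : R3) : L y = ∑ j, y j • L (Pi.single j 1) := by
  conv_lhs => rw [vec_eq_sum y]
  simp [map_sum]

/-- assembling a linear map from its values on the coordinate vectors -/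
theorem clm_eq_asm (L : R3 →L[ℝ] R3) :
    L = ∑ j, ContinuousLinearMap.smulRightL ℝ R3 R3 (ContinuousLinearMap.proj j)
      (L (Pi.single j 1)) := by
  ext y : 1
  rw [clm_apply_eq_sum L y]
  simp

theorem classical_to_clm (ν : ℝ) (f : ℝ → R3 → R3) (T : ℝ) (u : ℝ → R3 → R3) (p : ℝ → R3 → ℝ)
    (h : IsClassicalSolution ν f T u p) : IsClassicalSolutionCLM ν f T u p := by
  obtain ⟨ut, du, ddu, dp, ⟨hcu, hcdu, hdu⟩, hddu, ⟨hcp, hcdp, hdp⟩, hcut, hinit, hrest⟩ := h
  have hL1 : ∀ (t : ℝ) (x : R3), ∃ L : R3 →L[ℝ] R3,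
      t ∈ Icc (0 : ℝ) T → (HasFDerivAt (u t) L x ∧ ∀ v, L v = du t x v) := by
    intro t x
    by_cases ht : t ∈ Icc (0 : ℝ) T
    · obtain ⟨L, hL⟩ := hdu t ht x
      exact ⟨L, fun _ => hL⟩
    · exact ⟨0, fun h => absurd h ht⟩
  choose du' hdu' using hL1
  have hL2 : ∀ (j : Fin 3) (t : ℝ) (x : R3), ∃ L : R3 →L[ℝ] R3,
      t ∈ Icc (0 : ℝ) T → (HasFDerivAt (fun y => du t y (Pi.single j 1)) L x ∧
        ∀ w, L w = ddu t x (Pi.single j 1) w) := by
    intro j t x
    by_cases ht : t ∈ Icc (0 : ℝ) T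
    · obtain ⟨L, hL⟩ := (hddu (Pi.single j 1)).2.2 t ht x
      exact ⟨L, fun _ => hL⟩
    · exact ⟨0, fun h => absurd h ht⟩
  choose Lj hLj using hL2
  have hL3 : ∀ (t : ℝ) (x : R3), ∃ L : R3 →L[ℝ] ℝ,
      t ∈ Icc (0 : ℝ) T → (HasFDerivAt (p t) L x ∧ ∀ v, L v = dp t x v) := by
    intro t x
    by_cases ht : t ∈ Icc (0 : ℝ) T
    · obtain ⟨L, hL⟩ := hdp t ht x
      exact ⟨L, fun _ => hL⟩
    · exact ⟨0, fun h => absurd h ht⟩
  choose dp' hdp' using hL3
  obtain ⟨ddu', hddu'def⟩ : ∃ ddu' : ℝ → R3 → R3 →L[ℝ] R3 →L[ℝ] R3, ddu' = fun t x =>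
      ∑ j, (ContinuousLinearMap.smulRightL ℝ R3 R3 (ContinuousLinearMap.proj j)).comp (Lj j t x) :=
    ⟨_, rfl⟩
  have hddu'app : ∀ (t : ℝ) (x w v : R3), t ∈ Icc (0 : ℝ) T →
      ddu' t x w v = ∑ j, v j • ddu t x (Pi.single j 1) w := by
    intro t x w v ht
    rw [hddu'def]
    simp only [FunLike.coe_sum, Finset.sum_apply, ContinuousLinearMap.comp_apply,
      ContinuousLinearMap.smulRightL_apply_apply, ContinuousLinearMap.smulRight_apply,
      ContinuousLinearMap.proj_apply]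
    apply Finset.sum_congr rfl
    intro j _
    rw [(hLj j t x ht).2 w]
  have hddu'diag : ∀ (t : ℝ) (x : R3) (j : Fin 3), t ∈ Icc (0 : ℝ) T →
      ddu' t x (Pi.single j 1) (Pi.single j 1) = ddu t x (Pi.single j 1) (Pi.single j 1) := by
    intro t x j ht
    rw [hddu'app t x _ _ ht]
    rw [Finset.sum_eq_single j]
    · simp
    · intro b _ hb
      simp [hb]
    · intro hj
      exact absurd (Finset.mem_univ j) hj
  refine ⟨ut, du', ddu', dp', ?_, hcu, hcut, ?_, ?_, hcp, ?_, ?_, ?_, hinit, ?_⟩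
  · intro t ht x
    refine ⟨((hrest t ht).2.2 x).1, (hdu' t x ht).1, ?_, (hdp' t x ht).1⟩
    have hfun : du' t = fun y => ∑ j, ContinuousLinearMap.smulRightL ℝ R3 R3
        (ContinuousLinearMap.proj j) (du t y (Pi.single j 1)) := by
      funext y
      rw [clm_eq_asm (du' t y)]
      apply Finset.sum_congr rfl
      intro j _
      rw [(hdu' t y ht).2]
    rw [hfun, hddu'def]
    apply HasFDerivAt.fun_sum
    intro j _
    exact (ContinuousLinearMap.smulRightL ℝ R3 R3 (ContinuousLinearMap.proj j)).hasFDerivAt.comp x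
      (hLj j t x ht).1
  · rw [continuousOn_clm_apply]
    intro v
    refine (hcdu v).congr ?_
    intro z hz
    exact (hdu' z.1 z.2 hz.1).2 v
  · rw [continuousOn_clm_apply]
    intro w
    rw [continuousOn_clm_apply]
    intro v
    have hc : ContinuousOn (fun z : ℝ × R3 => ∑ j, v j • ddu z.1 z.2 (Pi.single j 1) w)
        (Icc (0 : ℝ) T ×ˢ univ) := by
      apply continuousOn_finsetSum
      intro j _
      exact ((hddu (Pi.single j 1)).2.1 w).const_smul (v j)
    refine hc.congr ?_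
    intro z hz
    exact hddu'app z.1 z.2 w v hz.1
  · rw [continuousOn_clm_apply]
    intro v
    refine (hcdp v).congr ?_
    intro z hz
    exact (hdp' z.1 z.2 hz.1).2 v
  · intro t ht
    exact ⟨fun x k => ((hrest t ht).1 x k).1, fun x k => ((hrest t ht).1 x k).2⟩
  · intro t ht x
    obtain ⟨-, hmom, hdiv⟩ := (hrest t ht).2.2 x
    constructor
    · rw [(hdu' t x ht).2]
      have e1 : (fun i => - dp' t x (Pi.single i 1)) = fun i => - dp t x (Pi.single i 1) := by
        funext i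
        rw [(hdp' t x ht).2]
      have e2 : (∑ j : Fin 3, ddu' t x (Pi.single j 1) (Pi.single j 1)) =
          ∑ j : Fin 3, ddu t x (Pi.single j 1) (Pi.single j 1) :=
        Finset.sum_congr rfl (fun j _ => hddu'diag t x j ht)
      rw [e1, e2]
      exact hmom
    · have e3 : (∑ j : Fin 3, du' t x (Pi.single j 1) j) = ∑ j : Fin 3, du t x (Pi.single j 1) j :=
        Finset.sum_congr rfl (fun j _ => by rw [(hdu' t x ht).2])
      rw [e3]
      exact hdiv
  · intro t ht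
    exact (hrest t ht).2.1

end Vale.Agent.Lib.P113
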