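import Vale.Agent.Lib.P113.Unique
import Vale.Agent.Lib.P113.Bridge
import Vale.Agent.Lib.P113.Profile

namespace Vale.Agent.Lib.P113
open Set

/-- the velocity field -/
noncomputable def uField (θ : ℝ) (t : ℝ) (_ : R3) : R3 := (θ * velP t) • (Pi.single 0 1 : R3)
/-- the force -/
noncomputable def fField (θ : ℝ) (t : ℝ) (_ : R3) : R3 := (θ * forceP t) • (Pi.single 0 1 : R3)
/-- the trajectory from the origin -/
noncomputable def xTraj (θ : ℝ) (t : ℝ) : R3 := (θ * trajP t) • (Pi.single 0 1 : R3)
/-- the target open set -/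
def target : Set R3 := {x | ∃ k : ℤ, (k : ℝ) < x 0 ∧ x 0 < k + 1 / 2}

theorem uField_hasDerivAt (θ : ℝ) (t : ℝ) (x : R3) :
    HasDerivAt (fun s => uField θ s x) (fField θ t x) t := by
  unfold uField fField
  exact ((velP_hasDerivAt t).const_mul θ).smul_const _

theorem velP_continuous : Continuous velP := velP_contDiff.continuous
theorem forceP_continuous : Continuous forceP := forceP_contDiff.continuous

theorem spaceC1_const {E : Type} [NormedAddCommGroup E] [NormedSpace ℝ E] (T : ℝ)
    (g : ℝ → R3 → E) (hg : ContinuousOn (Function.uncurry g) (Icc 0 T ×ˢ univ))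
    (hconst : ∀ t x y, g t x = g t y) : IsSpaceC1 T g (fun _ _ _ => 0) := by
  refine ⟨hg, fun _ => continuousOn_const, ?_⟩
  intro t _ x
  refine ⟨0, ?_, fun _ => rfl⟩
  have : g t = fun _ => g t x := funext fun y => hconst t y x
  rw [this]
  exact hasFDerivAt_const _ x

theorem uField_classical (ν θ T : ℝ) :
    IsClassicalSolution ν (fField θ) T (uField θ) (fun _ _ => 0) := by
  refine ⟨fField θ, fun _ _ _ => 0, fun _ _ _ _ => 0, fun _ _ _ => 0, ?_, ?_, ?_, ?_, ?_, ?_⟩
  · apply spaceC1_const
    · apply Continuous.continuousOn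
      unfold uField
      exact ((continuous_const.mul (velP_continuous.comp continuous_fst)).smul continuous_const)
    · intro t x y
      rfl
  · intro v
    exact spaceC1_const T _ continuousOn_const (fun _ _ _ => rfl)
  · exact spaceC1_const T _ continuousOn_const (fun _ _ _ => rfl)
  · apply Continuous.continuousOn
    unfold fField
    exact ((continuous_const.mul (forceP_continuous.comp continuous_fst)).smul continuous_const)
  · intro x
    simp [uField, velP_zero]
  · intro t _
    refine ⟨fun x k => ⟨rfl, rfl⟩, by simp, ?_⟩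
    intro x
    refine ⟨(uField_hasDerivAt θ t x).hasDerivWithinAt, ?_, by simp⟩
    ext i
    simp

theorem uField_smooth (θ : ℝ) : ContDiff ℝ (⊤ : ℕ∞) (Function.uncurry (uField θ)) := by
  unfold uField
  exact (contDiff_const.mul (velP_contDiff.comp contDiff_fst)).smul contDiff_const

theorem fField_smooth (θ : ℝ) : ContDiff ℝ (⊤ : ℕ∞) (Function.uncurry (fField θ)) := by
  unfold fField
  exact (contDiff_const.mul (forceP_contDiff.comp contDiff_fst)).smul contDiff_const

theorem uField_unique (ν : ℝ) (hν : 0 ≤ ν) (θ T : ℝ) (hT : 0 < T) (v : ℝ → R3 → R3) (π : ℝ → R3 → ℝ)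
    (h : IsClassicalSolution ν (fField θ) T v π) :
    ∀ t ∈ Icc (0 : ℝ) T, ∀ x, v t x = uField θ t x ∧ π t x = 0 := by
  have h' := classical_to_clm ν (fField θ) T v π h
  have hc : ∀ t, HasDerivAt (fun t => θ * velP t) (θ * forceP t) t := fun t =>
    (velP_hasDerivAt t).const_mul θ
  have hc' : Continuous (fun t => θ * forceP t) := continuous_const.mul forceP_continuous
  have hc0 : (fun t => θ * velP t) 0 = 0 := by simp [velP_zero]
  intro t ht x
  exact ⟨unique_velocity ν hν _ _ T hc0 hc hc' v π h' t ht x,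
    unique_pressure ν hν _ _ T hT hc0 hc hc' v π h' t ht x⟩

theorem xTraj_isTrajectory (θ : ℝ) : IsTrajectory (uField θ) 0 (xTraj θ) := by
  constructor
  · simp [xTraj, trajP_zero]
  · intro t _
    unfold xTraj uField
    exact (((trajP_hasDerivAt t).const_mul θ).smul_const _).hasDerivWithinAt

theorem xTraj_unique (θ : ℝ) (Y : ℝ → R3) (hY : IsTrajectory (uField θ) 0 Y) :
    ∀ t : ℝ, 0 ≤ t → Y t = xTraj θ t := by
  intro t ht
  have hX := xTraj_isTrajectory θ
  have hd : ∀ s : ℝ, 0 ≤ s → HasDerivWithinAt (fun r => Y r - xTraj θ r) 0 (Ici 0) s := by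
    intro s hs
    have h1 := hY.2 s hs
    have h2 := hX.2 s hs
    have h3 := h1.sub h2
    have e : uField θ s (Y s) - uField θ s (xTraj θ s) = 0 := by simp [uField]
    rw [e] at h3
    exact h3
  have hcont : ContinuousOn (fun r => Y r - xTraj θ r) (Icc 0 t) := fun s hs =>
    ((hd s hs.1).continuousWithinAt).mono Icc_subset_Ici_self
  have key := constant_of_has_deriv_right_zero hcont
    (fun s hs => (hd s hs.1).mono (Ici_subset_Ici.2 hs.1)) t ⟨ht, le_rfl⟩
  simp only [hY.1, hX.1, sub_self] at key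
  exact sub_eq_zero.1 key

theorem target_open : IsOpen target := by
  have : target = ⋃ k : ℤ, (fun x : R3 => x 0) ⁻¹' Ioo (k : ℝ) (k + 1 / 2) := by
    ext x
    simp [target]
  rw [this]
  exact isOpen_iUnion fun k => isOpen_Ioo.preimage (continuous_apply 0)

theorem target_periodic (x : R3) (k : Fin 3 → ℤ) :
    (x + fun i => (k i : ℝ)) ∈ target ↔ x ∈ target := by
  unfold target
  simp only [mem_ofPred_eq, Pi.add_apply]
  constructor
  · rintro ⟨m, h1, h2⟩
    refine ⟨m - k 0, ?_, ?_⟩ <;> push_cast <;> linarith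
  · rintro ⟨m, h1, h2⟩
    refine ⟨m + k 0, ?_, ?_⟩ <;> push_cast <;> linarith

theorem xTraj_hits_iff (θ : ℝ) (hθ : 0 ≤ θ) :
    (∃ t : ℝ, 0 ≤ t ∧ xTraj θ t ∈ target) ↔ 0 < θ := by
  have hκ : 0 < expNegInvGlue 1 := expNegInvGlue.pos_of_pos one_pos
  constructor
  · rintro ⟨t, _, k, h1, h2⟩
    by_contra hn
    have h0 : θ = 0 := le_antisymm (not_lt.1 hn) hθ
    simp only [xTraj, h0, zero_mul, zero_smul, Pi.zero_apply] at h1 h2
    have hk1 : k < 0 := by exact_mod_cast h1
    have hk2 : (k : ℝ) ≤ -1 := by exact_mod_cast (Int.le_sub_one_of_lt hk1)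
    linarith
  · intro hpos
    refine ⟨1 + 1 / (4 * θ * expNegInvGlue 1), by positivity, 0, ?_, ?_⟩
    · have h1 : (1 : ℝ) ≤ 1 + 1 / (4 * θ * expNegInvGlue 1) := by
        have : 0 ≤ 1 / (4 * θ * expNegInvGlue 1) := by positivity
        linarith
      simp only [xTraj, trajP_of_ge h1, Pi.smul_apply, Pi.single_eq_same, smul_eq_mul, mul_one,
        Int.cast_zero]
      field_simp
      norm_num
    · have h1 : (1 : ℝ) ≤ 1 + 1 / (4 * θ * expNegInvGlue 1) := by
        have : 0 ≤ 1 / (4 * θ * expNegInvGlue 1) := by positivity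
        linarith
      simp only [xTraj, trajP_of_ge h1, Pi.smul_apply, Pi.single_eq_same, smul_eq_mul, mul_one,
        Int.cast_zero]
      field_simp
      norm_num

theorem fField_after (θ : ℝ) (t : ℝ) (x : R3) (ht : 1 ≤ t) : fField θ t x = 0 := by
  simp [fField, forceP_of_ge ht]

end Vale.Agent.Lib.P113
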