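import Mathlib

namespace Vale.Agent.Lib.P113

noncomputable section

/-- A machine: a finite rule table with entries
`((state, scanned symbol), (new state, written symbol, move right))`
and a finite list of halting states. States and symbols are natural numbers,
the start state is `0` and the blank symbol is `0`. -/
abbrev Machine := List ((ℕ × ℕ) × (ℕ × ℕ × Bool)) × List ℕ

/-- One step on a configuration `(state, cells left of the head, nearest first,
cells from the head rightwards)`; all further cells are blank. The first rule for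
(state, scanned symbol) is applied; without one the configuration does not change. -/
def step (M : Machine) (c : ℕ × List ℕ × List ℕ) : ℕ × List ℕ × List ℕ :=
  (M.1.lookup (c.1, c.2.2.headD 0)).elim c fun r =>
    if r.2.2 then (r.1, r.2.1 :: c.2.1, c.2.2.tail)
    else (r.1, c.2.1.tail, c.2.1.headD 0 :: r.2.1 :: c.2.2.tail)

/-- `M` halts on the input word `w`: started in state `0` on the first cell of `w`,
it is in a halting state after finitely many steps, possibly none. -/
def Halts (M : Machine) (w : List ℕ) : Prop :=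
  ∃ n : ℕ, ((step M)^[n] (0, [], w)).1 ∈ M.2

/-- On `[0, T] × ℝ³` the field `g` is continuous and differentiable in space,
and `g' t x v`, its space derivative at `(t, x)` along `v`, is continuous. -/
def IsSpaceC1 {E : Type} [NormedAddCommGroup E] [NormedSpace ℝ E] (T : ℝ)
    (g : ℝ → (Fin 3 → ℝ) → E) (g' : ℝ → (Fin 3 → ℝ) → (Fin 3 → ℝ) → E) : Prop :=
  ContinuousOn (Function.uncurry g) (Set.Icc 0 T ×ˢ Set.univ) ∧
  (∀ v, ContinuousOn (Function.uncurry fun t x => g' t x v) (Set.Icc 0 T ×ˢ Set.univ)) ∧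
  ∀ t ∈ Set.Icc (0 : ℝ) T, ∀ x : Fin 3 → ℝ,
    ∃ L : (Fin 3 → ℝ) →L[ℝ] E, HasFDerivAt (g t) L x ∧ ∀ v, L v = g' t x v

/-- `(u, p)` is a classical solution on `[0, T]` of the Navier-Stokes system on the
torus (fields on `ℝ³` invariant under integer translations) with viscosity `ν`,
force `f` and zero initial velocity. Here `ut` is the time derivative of `u`,
`du t x v` the space derivative of `u` along `v`, `ddu t x v w` the space derivative
of `du · · v` along `w`, and `dp t x v` the space derivative of `p` along `v`. -/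
def IsClassicalSolution (ν : ℝ) (f : ℝ → (Fin 3 → ℝ) → Fin 3 → ℝ) (T : ℝ)
    (u : ℝ → (Fin 3 → ℝ) → Fin 3 → ℝ) (p : ℝ → (Fin 3 → ℝ) → ℝ) : Prop :=
  ∃ (ut : ℝ → (Fin 3 → ℝ) → Fin 3 → ℝ) (du : ℝ → (Fin 3 → ℝ) → (Fin 3 → ℝ) → Fin 3 → ℝ)
    (ddu : ℝ → (Fin 3 → ℝ) → (Fin 3 → ℝ) → (Fin 3 → ℝ) → Fin 3 → ℝ)
    (dp : ℝ → (Fin 3 → ℝ) → (Fin 3 → ℝ) → ℝ),
    IsSpaceC1 T u du ∧ (∀ v, IsSpaceC1 T (fun t x => du t x v) (fun t x w => ddu t x v w)) ∧
    IsSpaceC1 T p dp ∧
    ContinuousOn (Function.uncurry ut) (Set.Icc 0 T ×ˢ Set.univ) ∧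
    (∀ x, u 0 x = 0) ∧
    ∀ t ∈ Set.Icc (0 : ℝ) T,
      (∀ (x : Fin 3 → ℝ) (k : Fin 3 → ℤ),
        u t (x + fun i => (k i : ℝ)) = u t x ∧ p t (x + fun i => (k i : ℝ)) = p t x) ∧
      ∫ x in Set.Icc (0 : Fin 3 → ℝ) 1, p t x = 0 ∧
      ∀ x : Fin 3 → ℝ,
        HasDerivWithinAt (fun s => u s x) (ut t x) (Set.Icc 0 T) t ∧
        ut t x + du t x (u t x) =
          (fun i => - dp t x (Pi.single i 1)) +
            ν • (∑ j : Fin 3, ddu t x (Pi.single j 1) (Pi.single j 1)) + f t x ∧
        ∑ j : Fin 3, du t x (Pi.single j 1) j = 0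

/-- `X` is a particle trajectory of the velocity field `u` starting at `a`. -/
def IsTrajectory (u : ℝ → (Fin 3 → ℝ) → Fin 3 → ℝ) (a : Fin 3 → ℝ) (X : ℝ → Fin 3 → ℝ) : Prop :=
  X 0 = a ∧ ∀ t : ℝ, 0 ≤ t → HasDerivWithinAt X (u t (X t)) (Set.Ici 0) t

/-- The rational number `(a - b) / (c + 1)` coded by a triple `(a, b, c)`. -/
def ratVal (r : ℕ × ℕ × ℕ) : ℝ := ((r.1 : ℝ) - r.2.1) / (r.2.2 + 1)

/-- The program `c` returns every mixed derivative of the force `f` at every
rational point to every prescribed rational accuracy: on the code of a query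
(list `dirs` of differentiation directions in space-time, `0` being time;
component `i`; time `ta / (tb + 1)`; space coordinates coded by `x1, x2, x3`;
accuracy `(e1 + 1) / (e2 + 1)`) it halts with the code of a triple whose rational
number is that close to the derivative. -/
def IsProgram (c : Nat.Partrec.Code) (f : ℝ → (Fin 3 → ℝ) → Fin 3 → ℝ) : Prop :=
  ∀ (dirs : List (Fin 4)) (i : Fin 3) (ta tb : ℕ) (x1 x2 x3 : ℕ × ℕ × ℕ) (e1 e2 : ℕ),
    ∃ r : ℕ × ℕ × ℕ,
      c.eval (Encodable.encode (dirs, i, (ta, tb), (x1, x2, x3), (e1, e2))) =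
        Part.some (Encodable.encode r) ∧
      |ratVal r - iteratedFDeriv ℝ dirs.length
          (fun z : Fin 4 → ℝ => f (Matrix.vecHead z) (Matrix.vecTail z))
          ![(ta : ℝ) / (tb + 1), ratVal x1, ratVal x2, ratVal x3]
          (fun k => Pi.single (dirs.get k) 1) i| ≤ ((e1 : ℝ) + 1) / (e2 + 1)

/-- A force compiler: a computable map from pairs (machine, input) to programs of
smooth periodic forces that after time `T0` are periodic in time and depend on
the machine only. -/
def IsForceCompiler (T0 : ℝ) (force : Machine → List ℕ → ℝ → (Fin 3 → ℝ) → Fin 3 → ℝ)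
    (compile : Machine → List ℕ → Nat.Partrec.Code) : Prop :=
  Computable₂ compile ∧
  (∀ M w, ContDiff ℝ (⊤ : ℕ∞) (Function.uncurry (force M w)) ∧
    (∀ (t : ℝ) (x : Fin 3 → ℝ) (k : Fin 3 → ℤ),
      force M w t (x + fun i => (k i : ℝ)) = force M w t x) ∧
    IsProgram (compile M w) (force M w)) ∧
  ∀ M, ∃ P : ℝ, 0 < P ∧ ∃ F : ℝ → (Fin 3 → ℝ) → Fin 3 → ℝ,
    ∀ (w : List ℕ) (t : ℝ) (x : Fin 3 → ℝ),
      T0 ≤ t → force M w t x = F t x ∧ F (t + P) x = F t x

end

end Vale.Agent.Lib.P113
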