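import Vale.Agent.Lib.P113.ApproxDef

namespace Vale.Agent.Lib.P113

open Primrec

theorem pow_primrec : Primrec₂ (fun a b : ℕ => a ^ b) := Primrec₂.unpaired'.1 Nat.Primrec.pow

theorem list_sum_primrec : Primrec (List.sum : List ℕ → ℕ) := by
  have h : Primrec (fun l : List ℕ => l.foldl (fun s b => s + b) 0) :=
    Primrec.list_foldl (f := fun l : List ℕ => l) (g := fun _ => 0) (h := fun _ p => p.1 + p.2)
      Primrec.id (Primrec.const 0) (Primrec.nat_add.comp (Primrec.fst.comp Primrec.snd) (Primrec.snd.comp Primrec.snd)).to₂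
  refine h.of_eq (fun l => ?_)
  rw [List.sum_eq_foldl]

theorem lookup_eq (k : ℕ × ℕ) (l : List ((ℕ × ℕ) × (ℕ × ℕ × Bool))) :
    List.lookup k l = @List.lookup _ _ instBEqOfDecidableEq k l := by
  induction l with
  | nil => rfl
  | cons hd tl ih =>
    obtain ⟨k', v⟩ := hd
    have hb : (k == k') = (@BEq.beq _ instBEqOfDecidableEq k k') := by
      rw [Bool.eq_iff_iff]; simp
    unfold List.lookup
    rw [hb, ih]

theorem headD_zero (l : List ℕ) : l.headD 0 = l.headI := by
  cases l <;> rfl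

theorem step_eq (M : Machine) (c : Cfg) : step M c =
    Option.casesOn (motive := fun _ => Cfg) (@List.lookup _ _ instBEqOfDecidableEq (c.1, c.2.2.headI) M.1) c
      (fun r => cond r.2.2 (r.1, r.2.1 :: c.2.1, c.2.2.tail)
        (r.1, c.2.1.tail, c.2.1.headI :: r.2.1 :: c.2.2.tail)) := by
  unfold step
  rw [lookup_eq, headD_zero, headD_zero]
  cases h : @List.lookup _ _ instBEqOfDecidableEq (c.1, c.2.2.headI) M.1 with
  | none => rfl
  | some r =>
    obtain ⟨q', b, d⟩ := r
    cases d <;> simp [Option.elim]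

theorem step_primrec : Primrec₂ step := by
  refine Primrec₂.of_eq ?_ (fun M c => (step_eq M c).symm)
  have ho : Primrec (fun p : Machine × Cfg =>
      @List.lookup _ _ instBEqOfDecidableEq (p.2.1, p.2.2.2.headI) p.1.1) :=
    Primrec.listLookup.comp
      (Primrec.pair (Primrec.fst.comp Primrec.snd)
        (Primrec.list_headI.comp (Primrec.snd.comp (Primrec.snd.comp Primrec.snd))))
      (Primrec.fst.comp Primrec.fst)
  have hf : Primrec (fun p : Machine × Cfg => p.2) := Primrec.snd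
  have hc : Primrec (fun p : (Machine × Cfg) × (ℕ × ℕ × Bool) => p.2.2.2) :=
    Primrec.snd.comp (Primrec.snd.comp Primrec.snd)
  have h1 : Primrec (fun p : (Machine × Cfg) × (ℕ × ℕ × Bool) =>
      ((p.2.1, p.2.2.1 :: p.1.2.2.1, p.1.2.2.2.tail) : Cfg)) := by
    apply Primrec.pair (Primrec.fst.comp Primrec.snd)
    apply Primrec.pair
    · exact Primrec.list_cons.comp (Primrec.fst.comp (Primrec.snd.comp Primrec.snd))
        (Primrec.fst.comp (Primrec.snd.comp (Primrec.snd.comp Primrec.fst)))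
    · exact Primrec.list_tail.comp (Primrec.snd.comp (Primrec.snd.comp (Primrec.snd.comp Primrec.fst)))
  have h2 : Primrec (fun p : (Machine × Cfg) × (ℕ × ℕ × Bool) =>
      ((p.2.1, p.1.2.2.1.tail, p.1.2.2.1.headI :: p.2.2.1 :: p.1.2.2.2.tail) : Cfg)) := by
    apply Primrec.pair (Primrec.fst.comp Primrec.snd)
    apply Primrec.pair
    · exact Primrec.list_tail.comp (Primrec.fst.comp (Primrec.snd.comp (Primrec.snd.comp Primrec.fst)))
    · apply Primrec.list_cons.comp
      · exact Primrec.list_headI.comp (Primrec.fst.comp (Primrec.snd.comp (Primrec.snd.comp Primrec.fst)))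
      · apply Primrec.list_cons.comp
        · exact Primrec.fst.comp (Primrec.snd.comp Primrec.snd)
        · exact Primrec.list_tail.comp (Primrec.snd.comp (Primrec.snd.comp (Primrec.snd.comp Primrec.fst)))
  exact Primrec.option_casesOn ho hf (Primrec.cond hc h1 h2).to₂

theorem run_primrec : Primrec (fun a : (Machine × List ℕ) × ℕ => (step a.1.1)^[a.2] ((0, [], a.1.2) : Cfg)) := by
  apply Primrec.nat_iterate (f := fun a : (Machine × List ℕ) × ℕ => a.2)
    (g := fun a : (Machine × List ℕ) × ℕ => ((0, [], a.1.2) : Cfg))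
    (h := fun (a : (Machine × List ℕ) × ℕ) (c : Cfg) => step a.1.1 c)
  · exact Primrec.snd
  · exact Primrec.pair (Primrec.const 0) (Primrec.pair (Primrec.const []) (Primrec.snd.comp Primrec.fst))
  · exact step_primrec.comp (Primrec.fst.comp (Primrec.fst.comp Primrec.fst)) Primrec.snd

theorem mem_primrec : PrimrecRel (fun (a : ℕ) (L : List ℕ) => a ∈ L) := by
  have h : PrimrecRel (fun (L : List ℕ) (b : ℕ) => ∃ a ∈ L, a = b) :=
    PrimrecRel.exists_mem_list Primrec.eq
  have h2 := h.swap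
  refine h2.of_eq (fun a L => ?_)
  simp [Function.swap]

theorem halted_primrec : PrimrecPred (fun a : (Machine × List ℕ) × ℕ => haltedAt a.1.1 a.1.2 a.2) := by
  unfold haltedAt
  exact mem_primrec.comp (Primrec.fst.comp run_primrec) (Primrec.snd.comp (Primrec.fst.comp Primrec.fst))

theorem hsum_primrec : Primrec (fun a : (Machine × List ℕ) × ℕ => hsum a.1.1 a.1.2 a.2) := by
  unfold hsum
  apply list_sum_primrec.comp
  apply Primrec.list_map (f := fun a : (Machine × List ℕ) × ℕ => List.range (a.2 + 1))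
    (g := fun (a : (Machine × List ℕ) × ℕ) (i : ℕ) => if haltedAt a.1.1 a.1.2 i then 4 ^ (a.2 - i) else 0)
  · exact Primrec.list_range.comp (Primrec.succ.comp Primrec.snd)
  · apply Primrec.ite
    · exact halted_primrec.comp (Primrec.pair (Primrec.fst.comp Primrec.fst) Primrec.snd)
    · exact pow_primrec.comp (Primrec.const 4) (Primrec.nat_sub.comp (Primrec.snd.comp Primrec.fst) Primrec.snd)
    · exact Primrec.const 0

theorem dl_primrec : Primrec dl := by
  have hf : Primrec₂ (fun (_ : ℕ) (l : List ℕ) => 0 :: 0 :: (List.range l.length).map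
      (fun m => l.getD m 0 + (m + 1) * l.getD (m + 1) 0)) := by
    have hm : Primrec (fun p : ℕ × List ℕ => (List.range p.2.length).map
        (fun m => p.2.getD m 0 + (m + 1) * p.2.getD (m + 1) 0)) := by
      apply Primrec.list_map (f := fun p : ℕ × List ℕ => List.range p.2.length)
        (g := fun (p : ℕ × List ℕ) (m : ℕ) => p.2.getD m 0 + (m + 1) * p.2.getD (m + 1) 0)
      · exact Primrec.list_range.comp (Primrec.list_length.comp Primrec.snd)
      · apply Primrec.nat_add.comp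
        · exact (Primrec.list_getD 0).comp (Primrec.snd.comp Primrec.fst) Primrec.snd
        · apply Primrec.nat_mul.comp (Primrec.succ.comp Primrec.snd)
          exact (Primrec.list_getD 0).comp (Primrec.snd.comp Primrec.fst) (Primrec.succ.comp Primrec.snd)
    exact Primrec.list_cons.comp (Primrec.const 0) (Primrec.list_cons.comp (Primrec.const 0) hm)
  refine (Primrec.nat_rec₁ [1] hf).of_eq (fun n => ?_)
  induction n with
  | zero => rfl
  | succ n ih => simp only [dl]; rw [← ih]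

theorem dcoef_primrec : Primrec₂ dcoef :=
  (Primrec.list_getD 0).comp (dl_primrec.comp Primrec.fst) Primrec.snd

theorem psum_primrec : Primrec (fun a : ℕ × ℕ × ℕ × ℕ => psum a.1 a.2.1 a.2.2.1 a.2.2.2) := by
  unfold psum
  apply list_sum_primrec.comp
  apply Primrec.list_map (f := fun a : ℕ × ℕ × ℕ × ℕ => List.range (2 * a.1 + 1))
    (g := fun (a : ℕ × ℕ × ℕ × ℕ) (m : ℕ) =>
      if m % 2 = a.2.2.2 then dcoef a.1 m * a.2.1 ^ m * a.2.2.1 ^ (2 * a.1 - m) else 0)
  · exact Primrec.list_range.comp (Primrec.succ.comp (Primrec.nat_mul.comp (Primrec.const 2) Primrec.fst))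
  · apply Primrec.ite
    · exact Primrec.eq.comp (Primrec.nat_mod.comp Primrec.snd (Primrec.const 2))
        (Primrec.snd.comp (Primrec.snd.comp (Primrec.snd.comp Primrec.fst)))
    · apply Primrec.nat_mul.comp
      · apply Primrec.nat_mul.comp
        · exact dcoef_primrec.comp (Primrec.fst.comp Primrec.fst) Primrec.snd
        · exact pow_primrec.comp (Primrec.fst.comp (Primrec.snd.comp Primrec.fst)) Primrec.snd
      · apply pow_primrec.comp (Primrec.fst.comp (Primrec.snd.comp (Primrec.snd.comp Primrec.fst)))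
        exact Primrec.nat_sub.comp (Primrec.nat_mul.comp (Primrec.const 2) (Primrec.fst.comp Primrec.fst))
          Primrec.snd
    · exact Primrec.const 0

theorem spOf_primrec : Primrec (fun a : ℕ × ℕ × ℕ × ℕ => spOf a.1 a.2.1 a.2.2.1) := by
  unfold spOf
  have h : Primrec (fun a : ℕ × ℕ × ℕ × ℕ =>
      ((a.1 + 2, a.2.2.1 + 1, a.2.2.1 + 1 - a.2.1, a.1 % 2) : ℕ × ℕ × ℕ × ℕ)) := by
    apply Primrec.pair (Primrec.nat_add.comp Primrec.fst (Primrec.const 2))
    apply Primrec.pair (Primrec.succ.comp (Primrec.fst.comp (Primrec.snd.comp Primrec.snd)))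
    apply Primrec.pair
    · exact Primrec.nat_sub.comp (Primrec.succ.comp (Primrec.fst.comp (Primrec.snd.comp Primrec.snd)))
        (Primrec.fst.comp Primrec.snd)
    · exact Primrec.nat_mod.comp Primrec.fst (Primrec.const 2)
  exact psum_primrec.comp h

theorem smOf_primrec : Primrec (fun a : ℕ × ℕ × ℕ × ℕ => smOf a.1 a.2.1 a.2.2.1) := by
  unfold smOf
  have h : Primrec (fun a : ℕ × ℕ × ℕ × ℕ =>
      ((a.1 + 2, a.2.2.1 + 1, a.2.2.1 + 1 - a.2.1, (a.1 + 1) % 2) : ℕ × ℕ × ℕ × ℕ)) := by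
    apply Primrec.pair (Primrec.nat_add.comp Primrec.fst (Primrec.const 2))
    apply Primrec.pair (Primrec.succ.comp (Primrec.fst.comp (Primrec.snd.comp Primrec.snd)))
    apply Primrec.pair
    · exact Primrec.nat_sub.comp (Primrec.succ.comp (Primrec.fst.comp (Primrec.snd.comp Primrec.snd)))
        (Primrec.fst.comp Primrec.snd)
    · exact Primrec.nat_mod.comp (Primrec.succ.comp Primrec.fst) (Primrec.const 2)
  exact psum_primrec.comp h

theorem kOf_primrec : Primrec (fun a : ℕ × ℕ × ℕ × ℕ => kOf a.1 a.2.1 a.2.2.1 a.2.2.2) := by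
  unfold kOf
  apply Primrec.nat_mul.comp
  · exact Primrec.nat_mul.comp (Primrec.const 2) (Primrec.nat_add.comp spOf_primrec smOf_primrec)
  · exact Primrec.succ.comp (Primrec.snd.comp (Primrec.snd.comp Primrec.snd))

theorem nOf_primrec : Primrec (fun a : ℕ × ℕ × ℕ × ℕ => nOf a.1 a.2.1 a.2.2.1 a.2.2.2) := by
  unfold nOf
  apply Primrec.succ.comp
  apply Primrec.nat_add.comp
  · apply Primrec.nat_mul.comp kOf_primrec
    exact pow_primrec.comp (Primrec.succ.comp (Primrec.fst.comp (Primrec.snd.comp Primrec.snd))) (Primrec.const 2)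
  · exact Primrec.succ.comp (Primrec.fst.comp (Primrec.snd.comp Primrec.snd))

theorem approxOut_primrec : Primrec (fun b : ℕ × ℕ × ℕ × ℕ × ℕ × ℕ × ℕ × ℕ =>
    approxOut b.1 b.2.1 b.2.2.1 b.2.2.2.1 b.2.2.2.2.1 b.2.2.2.2.2.1 b.2.2.2.2.2.2.1 b.2.2.2.2.2.2.2) := by
  unfold approxOut
  have hh : Primrec (fun b : ℕ × ℕ × ℕ × ℕ × ℕ × ℕ × ℕ × ℕ => b.1) := Primrec.fst
  have hsp : Primrec (fun b : ℕ × ℕ × ℕ × ℕ × ℕ × ℕ × ℕ × ℕ => b.2.1) := Primrec.fst.comp Primrec.snd
  have hsm : Primrec (fun b : ℕ × ℕ × ℕ × ℕ × ℕ × ℕ × ℕ × ℕ => b.2.2.1) :=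
    Primrec.fst.comp (Primrec.snd.comp Primrec.snd)
  have hK : Primrec (fun b : ℕ × ℕ × ℕ × ℕ × ℕ × ℕ × ℕ × ℕ => b.2.2.2.1) :=
    Primrec.fst.comp (Primrec.snd.comp (Primrec.snd.comp Primrec.snd))
  have hN : Primrec (fun b : ℕ × ℕ × ℕ × ℕ × ℕ × ℕ × ℕ × ℕ => b.2.2.2.2.1) :=
    Primrec.fst.comp (Primrec.snd.comp (Primrec.snd.comp (Primrec.snd.comp Primrec.snd)))
  have hxa : Primrec (fun b : ℕ × ℕ × ℕ × ℕ × ℕ × ℕ × ℕ × ℕ => b.2.2.2.2.2.1) :=
    Primrec.fst.comp (Primrec.snd.comp (Primrec.snd.comp (Primrec.snd.comp (Primrec.snd.comp Primrec.snd))))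
  have hxb : Primrec (fun b : ℕ × ℕ × ℕ × ℕ × ℕ × ℕ × ℕ × ℕ => b.2.2.2.2.2.2.1) :=
    Primrec.fst.comp (Primrec.snd.comp (Primrec.snd.comp (Primrec.snd.comp
      (Primrec.snd.comp (Primrec.snd.comp Primrec.snd)))))
  have hj : Primrec (fun b : ℕ × ℕ × ℕ × ℕ × ℕ × ℕ × ℕ × ℕ => b.2.2.2.2.2.2.2) :=
    Primrec.snd.comp (Primrec.snd.comp (Primrec.snd.comp (Primrec.snd.comp
      (Primrec.snd.comp (Primrec.snd.comp Primrec.snd)))))
  have hp : Primrec (fun b : ℕ × ℕ × ℕ × ℕ × ℕ × ℕ × ℕ × ℕ => (b.2.2.2.2.1 * b.2.2.2.2.2.2.1) ^ b.2.2.2.2.1) :=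
    pow_primrec.comp (Primrec.nat_mul.comp hN hxb) hN
  apply Primrec.pair (Primrec.nat_mul.comp (Primrec.nat_mul.comp hh hsp) hp)
  apply Primrec.pair (Primrec.nat_mul.comp (Primrec.nat_mul.comp hh hsm) hp)
  apply Primrec.nat_sub.comp _ (Primrec.const 1)
  apply Primrec.nat_mul.comp
  · apply Primrec.nat_mul.comp
    · exact pow_primrec.comp (Primrec.const 4) (Primrec.succ.comp hK)
    · exact pow_primrec.comp hxb (Primrec.nat_mul.comp (Primrec.const 2)
        (Primrec.nat_add.comp hj (Primrec.const 2)))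
  · exact pow_primrec.comp (Primrec.nat_add.comp (Primrec.nat_mul.comp hN hxb) hxa) hN

theorem qa_primrec : Primrec (fun p : (Machine × List ℕ) × Query =>
      ((p.2.1.length, p.2.2.2.1.1, p.2.2.2.1.2, p.2.2.2.2.2.2) : ℕ × ℕ × ℕ × ℕ)) := by
    apply Primrec.pair (Primrec.list_length.comp (Primrec.fst.comp Primrec.snd))
    apply Primrec.pair (Primrec.fst.comp (Primrec.fst.comp (Primrec.snd.comp (Primrec.snd.comp Primrec.snd))))
    apply Primrec.pair (Primrec.snd.comp (Primrec.fst.comp (Primrec.snd.comp (Primrec.snd.comp Primrec.snd))))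
    exact Primrec.snd.comp (Primrec.snd.comp (Primrec.snd.comp (Primrec.snd.comp
      (Primrec.snd.comp Primrec.snd))))

theorem qK : Primrec (fun p : (Machine × List ℕ) × Query =>
    kOf p.2.1.length p.2.2.2.1.1 p.2.2.2.1.2 p.2.2.2.2.2.2) := by
  have := kOf_primrec.comp qa_primrec
  exact this

theorem qN : Primrec (fun p : (Machine × List ℕ) × Query =>
    nOf p.2.1.length p.2.2.2.1.1 p.2.2.2.1.2 p.2.2.2.2.2.2) := by
  have := nOf_primrec.comp qa_primrec
  exact this

theorem qsp : Primrec (fun p : (Machine × List ℕ) × Query =>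
    spOf p.2.1.length p.2.2.2.1.1 p.2.2.2.1.2) := by
  have := spOf_primrec.comp qa_primrec
  exact this

theorem qsm : Primrec (fun p : (Machine × List ℕ) × Query =>
    smOf p.2.1.length p.2.2.2.1.1 p.2.2.2.1.2) := by
  have := smOf_primrec.comp qa_primrec
  exact this

theorem qh : Primrec (fun p : (Machine × List ℕ) × Query =>
      hsum p.1.1 p.1.2 (kOf p.2.1.length p.2.2.2.1.1 p.2.2.2.1.2 p.2.2.2.2.2.2)) := by
  have := hsum_primrec.comp (Primrec.pair Primrec.fst qK)
  exact this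

theorem qta : Primrec (fun p : (Machine × List ℕ) × Query => p.2.2.2.1.1) :=
  Primrec.fst.comp (Primrec.fst.comp (Primrec.snd.comp (Primrec.snd.comp Primrec.snd)))

theorem qtb : Primrec (fun p : (Machine × List ℕ) × Query => p.2.2.2.1.2) :=
  Primrec.snd.comp (Primrec.fst.comp (Primrec.snd.comp (Primrec.snd.comp Primrec.snd)))

theorem qcond : PrimrecPred (fun p : (Machine × List ℕ) × Query =>
      (∀ d ∈ p.2.1, d = 0) ∧ p.2.2.1 = 0 ∧ p.2.2.2.1.1 < p.2.2.2.1.2 + 1) := by
  apply PrimrecPred.and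
  · have h0 : PrimrecPred (fun d : Fin 4 => d = 0) := Primrec.eq.comp Primrec.id (Primrec.const 0)
    exact (PrimrecPred.forall_mem_list h0).comp (Primrec.fst.comp Primrec.snd)
  · apply PrimrecPred.and
    · exact Primrec.eq.comp (Primrec.fst.comp (Primrec.snd.comp Primrec.snd)) (Primrec.const 0)
    · exact Primrec.nat_lt.comp qta (Primrec.succ.comp qtb)

theorem qb : Primrec (fun p : (Machine × List ℕ) × Query =>
      ((hsum p.1.1 p.1.2 (kOf p.2.1.length p.2.2.2.1.1 p.2.2.2.1.2 p.2.2.2.2.2.2),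
        spOf p.2.1.length p.2.2.2.1.1 p.2.2.2.1.2, smOf p.2.1.length p.2.2.2.1.1 p.2.2.2.1.2,
        kOf p.2.1.length p.2.2.2.1.1 p.2.2.2.1.2 p.2.2.2.2.2.2,
        nOf p.2.1.length p.2.2.2.1.1 p.2.2.2.1.2 p.2.2.2.2.2.2,
        p.2.2.2.1.2 + 1, p.2.2.2.1.2 + 1 - p.2.2.2.1.1, p.2.1.length) :
        ℕ × ℕ × ℕ × ℕ × ℕ × ℕ × ℕ × ℕ)) := by
  apply Primrec.pair qh
  apply Primrec.pair qsp
  apply Primrec.pair qsm
  apply Primrec.pair qK
  apply Primrec.pair qN
  apply Primrec.pair (Primrec.succ.comp qtb)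
  apply Primrec.pair (Primrec.nat_sub.comp (Primrec.succ.comp qtb) qta)
  exact Primrec.list_length.comp (Primrec.fst.comp Primrec.snd)

theorem qthen : Primrec (fun p : (Machine × List ℕ) × Query =>
      approxOut (hsum p.1.1 p.1.2 (kOf p.2.1.length p.2.2.2.1.1 p.2.2.2.1.2 p.2.2.2.2.2.2))
        (spOf p.2.1.length p.2.2.2.1.1 p.2.2.2.1.2) (smOf p.2.1.length p.2.2.2.1.1 p.2.2.2.1.2)
        (kOf p.2.1.length p.2.2.2.1.1 p.2.2.2.1.2 p.2.2.2.2.2.2)
        (nOf p.2.1.length p.2.2.2.1.1 p.2.2.2.1.2 p.2.2.2.2.2.2)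
        (p.2.2.2.1.2 + 1) (p.2.2.2.1.2 + 1 - p.2.2.2.1.1) p.2.1.length) := by
  have := approxOut_primrec.comp qb
  exact this

theorem approx_primrec : Primrec (fun p : (Machine × List ℕ) × Query => approx p.1.1 p.1.2 p.2) := by
  have := Primrec.ite qcond qthen (Primrec.const (0, 0, 0))
  exact this

theorem approx_computable :
    Computable (fun p : (Machine × List ℕ) × Query => approx p.1.1 p.1.2 p.2) :=
  approx_primrec.to_comp

end Vale.Agent.Lib.P113
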