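import Vale.Agent.Lib.P113.ApproxCorrect
import Vale.Agent.Lib.P113.Prim

namespace Vale.Agent.Lib.P113

theorem main_theorem_uniform :
    ∃ (a : Fin 3 → ℝ) (O : Set (Fin 3 → ℝ)) (T0 : ℝ)
      (force : Machine → List ℕ → ℝ → (Fin 3 → ℝ) → Fin 3 → ℝ)
      (compile : Machine → List ℕ → Nat.Partrec.Code),
      IsOpen O ∧ (∀ (x : Fin 3 → ℝ) (k : Fin 3 → ℤ), (x + fun i => (k i : ℝ)) ∈ O ↔ x ∈ O) ∧
      0 ≤ T0 ∧ IsForceCompiler T0 force compile ∧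
      (∀ (M : Machine) (w : List ℕ) (t : ℝ) (x : Fin 3 → ℝ), T0 ≤ t → force M w t x = 0) ∧
      ∀ ν : ℝ, 0 < ν → ∀ (M : Machine) (w : List ℕ),
        ∃ (u : ℝ → (Fin 3 → ℝ) → Fin 3 → ℝ) (p : ℝ → (Fin 3 → ℝ) → ℝ) (X : ℝ → Fin 3 → ℝ),
          ContDiff ℝ (⊤ : ℕ∞) (Function.uncurry u) ∧ ContDiff ℝ (⊤ : ℕ∞) (Function.uncurry p) ∧
          (∀ T : ℝ, 0 < T → IsClassicalSolution ν (force M w) T u p ∧
            ∀ (v : ℝ → (Fin 3 → ℝ) → Fin 3 → ℝ) (π : ℝ → (Fin 3 → ℝ) → ℝ),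
              IsClassicalSolution ν (force M w) T v π →
                ∀ t ∈ Set.Icc (0 : ℝ) T, ∀ x : Fin 3 → ℝ, v t x = u t x ∧ π t x = p t x) ∧
          IsTrajectory u a X ∧
          (∀ Y : ℝ → Fin 3 → ℝ, IsTrajectory u a Y → ∀ t : ℝ, 0 ≤ t → Y t = X t) ∧
          ((∃ t : ℝ, 0 ≤ t ∧ X t ∈ O) ↔ Halts M w) := by
  obtain ⟨c0, hc0⟩ := Nat.Partrec.Code.exists_code.1 approx_computable
  refine ⟨0, target, 1, fun M w => fField (theta M w),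
    fun M w => c0.curry (Encodable.encode (M, w)), target_open, target_periodic, zero_le_one,
    ⟨?_, ?_, ?_⟩, ?_, ?_⟩
  · have h : Primrec (fun p : Machine × List ℕ => c0.curry (Encodable.encode p)) :=
      Nat.Partrec.Code.primrec₂_curry.comp (Primrec.const c0) Primrec.encode
    exact h.to_comp
  · intro M w
    refine ⟨fField_smooth _, fun t x k => rfl, ?_⟩
    intro dirs i ta tb x1 x2 x3 e1 e2
    refine ⟨approx M w (dirs, i, (ta, tb), (x1, x2, x3), (e1, e2)), ?_,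
      approx_correct M w (dirs, i, (ta, tb), (x1, x2, x3), (e1, e2))⟩
    rw [Nat.Partrec.Code.eval_curry, ← Encodable.encode_prod_val, hc0]
    simp only [Encodable.encodek]
    simp
  · intro M
    exact ⟨1, one_pos, fun _ _ => 0, fun w t x ht => ⟨fField_after _ t x ht, rfl⟩⟩
  · intro M w t x ht
    exact fField_after _ t x ht
  · intro ν hν M w
    refine ⟨uField (theta M w), fun _ _ => 0, xTraj (theta M w), uField_smooth _, contDiff_const,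
      ?_, xTraj_isTrajectory _, xTraj_unique _, ?_⟩
    · intro T hT
      refine ⟨uField_classical ν _ T, ?_⟩
      intro v π h t ht x
      exact uField_unique ν hν.le _ T hT v π h t ht x
    · rw [xTraj_hits_iff _ (theta_nonneg M w), theta_pos_iff]

theorem main_theorem (ν : ℝ) (hν : 0 < ν) :
    ∃ (a : Fin 3 → ℝ) (O : Set (Fin 3 → ℝ)) (T0 : ℝ)
      (force : Machine → List ℕ → ℝ → (Fin 3 → ℝ) → Fin 3 → ℝ)
      (compile : Machine → List ℕ → Nat.Partrec.Code),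
      IsOpen O ∧ (∀ (x : Fin 3 → ℝ) (k : Fin 3 → ℤ), (x + fun i => (k i : ℝ)) ∈ O ↔ x ∈ O) ∧
      0 ≤ T0 ∧ IsForceCompiler T0 force compile ∧
      ∀ (M : Machine) (w : List ℕ),
        ∃ (u : ℝ → (Fin 3 → ℝ) → Fin 3 → ℝ) (p : ℝ → (Fin 3 → ℝ) → ℝ) (X : ℝ → Fin 3 → ℝ),
          ContDiff ℝ (⊤ : ℕ∞) (Function.uncurry u) ∧ ContDiff ℝ (⊤ : ℕ∞) (Function.uncurry p) ∧
          (∀ T : ℝ, 0 < T → IsClassicalSolution ν (force M w) T u p ∧
            ∀ (v : ℝ → (Fin 3 → ℝ) → Fin 3 → ℝ) (π : ℝ → (Fin 3 → ℝ) → ℝ),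
              IsClassicalSolution ν (force M w) T v π →
                ∀ t ∈ Set.Icc (0 : ℝ) T, ∀ x : Fin 3 → ℝ, v t x = u t x ∧ π t x = p t x) ∧
          IsTrajectory u a X ∧
          (∀ Y : ℝ → Fin 3 → ℝ, IsTrajectory u a Y → ∀ t : ℝ, 0 ≤ t → Y t = X t) ∧
          ((∃ t : ℝ, 0 ≤ t ∧ X t ∈ O) ↔ Halts M w) := by
  obtain ⟨a, O, T0, force, compile, h1, h2, h3, h4, -, h5⟩ := main_theorem_uniform
  exact ⟨a, O, T0, force, compile, h1, h2, h3, h4, h5 ν hν⟩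

end Vale.Agent.Lib.P113
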