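import Vale.Agent.Lib.P113.Defs

namespace Vale.Agent.Lib.P113

noncomputable section

/-- Points of the universal cover of the flat torus. -/
abbrev R3 := Fin 3 → ℝ

/-- Invariance under integer translations. -/
def Periodic3 {α : Type} (g : R3 → α) : Prop :=
  ∀ (x : R3) (k : Fin 3 → ℤ), g (x + fun i => (k i : ℝ)) = g x

/-- The classical solution notion with the space derivatives given as
continuous linear maps; implied by `IsClassicalSolution`. -/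
def IsClassicalSolutionCLM (ν : ℝ) (f : ℝ → R3 → R3) (T : ℝ)
    (u : ℝ → R3 → R3) (p : ℝ → R3 → ℝ) : Prop :=
  ∃ (ut : ℝ → R3 → R3) (du : ℝ → R3 → R3 →L[ℝ] R3)
    (ddu : ℝ → R3 → R3 →L[ℝ] R3 →L[ℝ] R3) (dp : ℝ → R3 → R3 →L[ℝ] ℝ),
    (∀ t ∈ Set.Icc (0 : ℝ) T, ∀ x : R3,
      HasDerivWithinAt (fun s => u s x) (ut t x) (Set.Icc 0 T) t ∧
      HasFDerivAt (u t) (du t x) x ∧ HasFDerivAt (du t) (ddu t x) x ∧
      HasFDerivAt (p t) (dp t x) x) ∧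
    ContinuousOn (Function.uncurry u) (Set.Icc 0 T ×ˢ Set.univ) ∧
    ContinuousOn (Function.uncurry ut) (Set.Icc 0 T ×ˢ Set.univ) ∧
    ContinuousOn (Function.uncurry du) (Set.Icc 0 T ×ˢ Set.univ) ∧
    ContinuousOn (Function.uncurry ddu) (Set.Icc 0 T ×ˢ Set.univ) ∧
    ContinuousOn (Function.uncurry p) (Set.Icc 0 T ×ˢ Set.univ) ∧
    ContinuousOn (Function.uncurry dp) (Set.Icc 0 T ×ˢ Set.univ) ∧
    (∀ t ∈ Set.Icc (0 : ℝ) T, Periodic3 (u t) ∧ Periodic3 (p t)) ∧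
    (∀ t ∈ Set.Icc (0 : ℝ) T, ∀ x : R3,
      ut t x + du t x (u t x) =
        (fun i => - dp t x (Pi.single i 1)) +
          ν • (∑ j : Fin 3, ddu t x (Pi.single j 1) (Pi.single j 1)) + f t x ∧
      ∑ j : Fin 3, du t x (Pi.single j 1) j = 0) ∧
    (∀ x : R3, u 0 x = 0) ∧
    (∀ t ∈ Set.Icc (0 : ℝ) T, ∫ x in Set.Icc (0 : R3) 1, p t x = 0)

abbrev Cfg := ℕ × List ℕ × List ℕ

/-- A query to a force program. -/
abbrev Query :=
  List (Fin 4) × Fin 3 × (ℕ × ℕ) × ((ℕ × ℕ × ℕ) × (ℕ × ℕ × ℕ) × (ℕ × ℕ × ℕ)) × (ℕ × ℕ)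

/-- The time of a query. -/
def qTime (q : Query) : ℝ := (q.2.2.1.1 : ℝ) / (q.2.2.1.2 + 1)

/-- The rational space-time point of a query. -/
def qPoint (q : Query) : Fin 4 → ℝ :=
  ![(q.2.2.1.1 : ℝ) / (q.2.2.1.2 + 1), ratVal q.2.2.2.1.1, ratVal q.2.2.2.1.2.1,
    ratVal q.2.2.2.1.2.2]

/-- The rational accuracy of a query. -/
def qAcc (q : Query) : ℝ := ((q.2.2.2.2.1 : ℝ) + 1) / (q.2.2.2.2.2 + 1)

/-- The mixed derivative of the force asked for by a query. -/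
def mixedDeriv (f : ℝ → R3 → R3) (q : Query) : ℝ :=
  iteratedFDeriv ℝ q.1.length (fun z : Fin 4 → ℝ => f (Matrix.vecHead z) (Matrix.vecTail z))
    (qPoint q) (fun k => Pi.single (q.1.get k) 1) q.2.1

end

end Vale.Agent.Lib.P113
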