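import Vale.Agent.Lib.P113.QueryDefs

namespace Vale.Agent.Lib.P113
open MeasureTheory Set


theorem cube_le : (0 : R3) ≤ 1 := fun _ => zero_le_one

/-- periodic functions have periodic derivatives -/
theorem periodic_fderiv {E : Type} [NormedAddCommGroup E] [NormedSpace ℝ E]
    (g : R3 → E) (g' : R3 → R3 →L[ℝ] E) (hg : ∀ x, HasFDerivAt g (g' x) x)
    (hp : Periodic3 g) : Periodic3 g' := by
  intro x k
  have h1 : HasFDerivAt (fun y => g (y + fun i => (k i : ℝ))) (g' (x + fun i => (k i : ℝ))) x := by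
    have := (hg (x + fun i => (k i : ℝ))).comp x ((hasFDerivAt_id x).add_const (fun i => (k i : ℝ)))
    rw [ContinuousLinearMap.comp_id] at this
    exact this
  have h2 : (fun y => g (y + fun i => (k i : ℝ))) = g := funext fun y => hp y k
  rw [h2] at h1
  exact h1.unique (hg x)

/-- the integral of the divergence of a periodic vector field over the unit cube vanishes -/
theorem integral_div_eq_zero (g : Fin 3 → R3 → ℝ) (g' : Fin 3 → R3 → R3 →L[ℝ] ℝ)
    (hg : ∀ j x, HasFDerivAt (g j) (g' j x) x) (hp : ∀ j, Periodic3 (g j))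
    (hc : ContinuousOn (fun x => ∑ j, g' j x (Pi.single j 1)) (Icc (0 : R3) 1)) :
    ∫ x in Icc (0 : R3) 1, ∑ j, g' j x (Pi.single j 1) = 0 := by
  have key := integral_divergence_of_hasFDerivAt_off_countable (E := ℝ) (n := 2) (0 : R3) 1 cube_le
    (fun x i => g i x) (fun x => ContinuousLinearMap.pi (fun i => g' i x)) ∅ countable_empty
    ?_ ?_ ?_
  · simp only [ContinuousLinearMap.pi_apply] at key
    rw [key]
    apply Finset.sum_eq_zero
    intro i _
    have : ∀ y : Fin 2 → ℝ, g i (i.insertNth ((1 : R3) i) y) = g i (i.insertNth ((0 : R3) i) y) := by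
      intro y
      have h := hp i (i.insertNth ((0 : R3) i) y) (Pi.single i 1)
      rw [← h]
      congr 1
      ext l
      rcases Fin.eq_self_or_eq_succAbove i l with h | ⟨m, h⟩
      · subst h; simp
      · subst h; simp [Fin.succAbove_ne]
    simp only [this, sub_self]
  · apply continuousOn_pi.2
    intro i
    exact (fun x _ => (hg i x).continuousAt.continuousWithinAt)
  · intro x _
    rw [hasFDerivAt_pi]
    intro i
    exact hg i x
  · simp only [ContinuousLinearMap.pi_apply]
    exact hc.integrableOn_compact isCompact_Icc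

theorem clm_eq_sum (L : R3 →L[ℝ] R3) (y : R3) (i : Fin 3) :
    L y i = ∑ j, y j * L (Pi.single j 1) i := by
  have : y = ∑ j, y j • (Pi.single j (1 : ℝ) : R3) := by
    ext l
    simp [Finset.sum_apply, Pi.single_apply]
  conv_lhs => rw [this]
  simp [map_sum]

theorem energy_identity (ν : ℝ) (v : R3 → R3) (π : R3 → ℝ) (dv : R3 → R3 →L[ℝ] R3)
    (ddv : R3 → R3 →L[ℝ] R3 →L[ℝ] R3) (dπ : R3 → R3 →L[ℝ] ℝ)
    (hv : ∀ x, HasFDerivAt v (dv x) x) (hdv : ∀ x, HasFDerivAt dv (ddv x) x)
    (hπ : ∀ x, HasFDerivAt π (dπ x) x)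
    (hvp : Periodic3 v) (hπp : Periodic3 π)
    (hcdv : Continuous dv) (hcddv : Continuous ddv) (hcdπ : Continuous dπ)
    (hdiv : ∀ x, ∑ j, dv x (Pi.single j 1) j = 0) (k : R3) :
    ∫ x in Icc (0 : R3) 1,
      (∑ i, 2 * (v x i - k i) * (-(dv x (v x)) i - dπ x (Pi.single i 1)
          + ν * ∑ j, ddv x (Pi.single j 1) (Pi.single j 1) i)
        + 2 * ν * ∑ i, ∑ j, (dv x (Pi.single j 1) i) ^ 2) = 0 := by
  have hcv : Continuous v := continuous_iff_continuousAt.2 fun x => (hv x).continuousAt
  have hcπ : Continuous π := continuous_iff_continuousAt.2 fun x => (hπ x).continuousAt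
  have hV : ∀ (i : Fin 3) (x : R3), HasFDerivAt (fun y => v y i)
      ((ContinuousLinearMap.proj i).comp (dv x)) x := fun i x => (hasFDerivAt_pi'.1 (hv x)) i
  have hB : ∀ (i j : Fin 3) (x : R3), HasFDerivAt (fun y => dv y (Pi.single j 1) i)
      (((ContinuousLinearMap.proj i).comp
        (ContinuousLinearMap.apply ℝ R3 (Pi.single j 1 : R3))).comp (ddv x)) x := by
    intro i j x
    exact (((ContinuousLinearMap.proj i).comp
        (ContinuousLinearMap.apply ℝ R3 (Pi.single j 1 : R3))).hasFDerivAt).comp x (hdv x)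
  have hdvp := periodic_fderiv v dv hv hvp
  have key := integral_div_eq_zero
    (fun j x => -(∑ i, v x j * (v x i - k i) ^ 2) - 2 * (π x * (v x j - k j))
      + 2 * ν * ∑ i, (v x i - k i) * dv x (Pi.single j 1) i)
    (fun j x => -(∑ i, (v x j • ((2 • (v x i - k i) ^ (2 - 1)) • (ContinuousLinearMap.proj i).comp (dv x))
        + (v x i - k i) ^ 2 • (ContinuousLinearMap.proj j).comp (dv x)))
      - (2 : ℝ) • (π x • (ContinuousLinearMap.proj j).comp (dv x) + (v x j - k j) • dπ x)
      + (2 * ν) • ∑ i, ((v x i - k i) • (((ContinuousLinearMap.proj i).comp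
        (ContinuousLinearMap.apply ℝ R3 (Pi.single j 1 : R3))).comp (ddv x))
        + dv x (Pi.single j 1) i • (ContinuousLinearMap.proj i).comp (dv x)))
    ?_ ?_ ?_
  · rw [← key]
    apply setIntegral_congr_fun measurableSet_Icc
    intro x _
    have hd := hdiv x
    have e1 : ∀ i, (dv x (v x)) i = ∑ j, v x j * dv x (Pi.single j 1) i := clm_eq_sum (dv x) (v x)
    simp only [e1]
    simp only [Fin.sum_univ_three] at hd ⊢
    simp only [add_apply, sub_apply,
      neg_apply, smul_apply,
      ContinuousLinearMap.coe_comp, Function.comp_apply, ContinuousLinearMap.proj_apply,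
      ContinuousLinearMap.apply_apply, smul_eq_mul, nsmul_eq_mul]
    norm_num
    linear_combination ((v x 0 - k 0) ^ 2 + (v x 1 - k 1) ^ 2 + (v x 2 - k 2) ^ 2 + 2 * π x) * hd
  · intro j x
    refine ((HasFDerivAt.fun_sum fun i _ => ?_).neg.sub ?_).add ?_
    · exact (hV j x).mul (((hV i x).sub_const (k i)).pow 2)
    · exact ((hπ x).mul ((hV j x).sub_const (k j))).const_mul 2
    · refine (HasFDerivAt.fun_sum fun i _ => ?_).const_mul (2 * ν)
      exact ((hV i x).sub_const (k i)).mul (hB i j x)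
  · intro j x z
    simp only [hvp x z, hπp x z, hdvp x z]
  · simp only [add_apply, sub_apply,
      neg_apply, smul_apply,
      ContinuousLinearMap.coe_comp, Function.comp_apply, ContinuousLinearMap.proj_apply,
      ContinuousLinearMap.apply_apply, smul_eq_mul, nsmul_eq_mul, sum_apply]
    apply Continuous.continuousOn
    fun_prop



theorem slice_continuous {Y : Type*} [TopologicalSpace Y] {T : ℝ} (F : ℝ → R3 → Y)
    (hF : ContinuousOn (Function.uncurry F) (Icc 0 T ×ˢ univ)) {t : ℝ} (ht : t ∈ Icc 0 T) :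
    Continuous (F t) :=
  hF.comp_continuous (continuous_const.prodMk continuous_id) (fun x => ⟨ht, mem_univ x⟩)

theorem periodic_reduce {α : Type} (g : R3 → α) (hp : Periodic3 g) (x : R3) :
    ∃ y ∈ Icc (0 : R3) 1, g x = g y := by
  refine ⟨fun i => Int.fract (x i), ⟨fun i => Int.fract_nonneg _, fun i => (Int.fract_lt_one _).le⟩, ?_⟩
  have := hp (fun i => Int.fract (x i)) (fun i => ⌊x i⌋)
  rw [← this]
  congr 1
  ext i
  simp

theorem unique_velocity (ν : ℝ) (hν : 0 ≤ ν) (c c' : ℝ → ℝ) (T : ℝ) (hc0 : c 0 = 0)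
    (hc : ∀ t, HasDerivAt c (c' t) t) (hc' : Continuous c')
    (v : ℝ → R3 → R3) (π : ℝ → R3 → ℝ)
    (h : IsClassicalSolutionCLM ν (fun t _ => c' t • (Pi.single 0 1 : R3)) T v π) :
    ∀ t ∈ Icc (0 : ℝ) T, ∀ x, v t x = c t • (Pi.single 0 1 : R3) := by
  obtain ⟨vt, dv, ddv, dπ, hder, hcv, hcvt, hcdv, hcddv, hcπ, hcdπ, hper, heq, hinit, hmean⟩ := h
  have hcc : Continuous c := continuous_iff_continuousAt.2 (fun t => (hc t).continuousAt)
  obtain ⟨G, hGdef⟩ : ∃ G : ℝ → R3 → ℝ, G = fun t x => ∑ i, (v t x i - c t * (Pi.single 0 1 : R3) i) ^ 2 :=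
    ⟨_, rfl⟩
  obtain ⟨G', hG'def⟩ : ∃ G' : ℝ → R3 → ℝ, G' = fun t x => ∑ i, 2 * (v t x i - c t * (Pi.single 0 1 : R3) i) *
      (vt t x i - c' t * (Pi.single 0 1 : R3) i) := ⟨_, rfl⟩
  have hG : ContinuousOn (Function.uncurry G) (Icc 0 T ×ˢ univ) := by
    rw [hGdef]
    apply continuousOn_finsetSum; intro i _
    apply ContinuousOn.pow
    apply ContinuousOn.sub
    · exact (continuous_apply i).comp_continuousOn hcv
    · exact ((hcc.comp continuous_fst).mul continuous_const).continuousOn
  have hG' : ContinuousOn (Function.uncurry G') (Icc 0 T ×ˢ univ) := by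
    rw [hG'def]
    apply continuousOn_finsetSum; intro i _
    apply ContinuousOn.mul
    · apply ContinuousOn.mul continuousOn_const
      apply ContinuousOn.sub
      · exact (continuous_apply i).comp_continuousOn hcv
      · exact ((hcc.comp continuous_fst).mul continuous_const).continuousOn
    · apply ContinuousOn.sub
      · exact (continuous_apply i).comp_continuousOn hcvt
      · exact ((hc'.comp continuous_fst).mul continuous_const).continuousOn
  have hcpt : IsCompact (Icc (0 : ℝ) T ×ˢ Icc (0 : R3) 1) := isCompact_Icc.prod isCompact_Icc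
  obtain ⟨C, hC⟩ := hcpt.exists_bound_of_continuousOn (hG.mono (prod_mono subset_rfl (subset_univ _)))
  obtain ⟨C', hC'⟩ := hcpt.exists_bound_of_continuousOn (hG'.mono (prod_mono subset_rfl (subset_univ _)))
  have hfin : volume (Icc (0 : R3) 1) < ⊤ := isCompact_Icc.measure_lt_top
  -- time derivative of G
  have hGt : ∀ x : R3, ∀ s ∈ Ioo (0 : ℝ) T, HasDerivAt (fun r => G r x) (G' s x) s := by
    intro x s hs
    rw [hGdef, hG'def]
    have h1 := ((hder s ⟨hs.1.le, hs.2.le⟩ x).1).hasDerivAt (Icc_mem_nhds hs.1 hs.2)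
    have h2 : HasDerivAt (fun r => ∑ i, (v r x i - c r * (Pi.single 0 1 : R3) i) ^ 2)
        (∑ i, (2 : ℕ) * (v s x i - c s * (Pi.single 0 1 : R3) i) ^ (2 - 1) *
          (vt s x i - c' s * (Pi.single 0 1 : R3) i)) s := by
      apply HasDerivAt.fun_sum
      intro i _
      exact (((hasDerivAt_pi.1 h1) i).sub ((hc s).mul_const _)).pow 2
    convert h2 using 1
    apply Finset.sum_congr rfl
    intro i _
    norm_num
  -- the energy
  have hEcont : ContinuousOn (fun t => ∫ x in Icc (0 : R3) 1, G t x) (Icc 0 T) := by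
    apply continuousOn_of_dominated (bound := fun _ => C)
    · intro t ht
      exact (slice_continuous G hG ht).aestronglyMeasurable
    · intro t ht
      exact (ae_restrict_iff' measurableSet_Icc).2 (Filter.Eventually.of_forall fun x hx => hC (t, x) ⟨ht, hx⟩)
    · exact integrableOn_const (C := C) hfin.ne
    · exact Filter.Eventually.of_forall fun x =>
        hG.comp (continuous_id.prodMk continuous_const).continuousOn (fun t ht => ⟨ht, mem_univ x⟩)
  have hEder : ∀ t ∈ Ioo (0 : ℝ) T, HasDerivAt (fun t => ∫ x in Icc (0 : R3) 1, G t x)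
      (∫ x in Icc (0 : R3) 1, G' t x) t := by
    intro t ht
    have htI : t ∈ Icc (0 : ℝ) T := ⟨ht.1.le, ht.2.le⟩
    refine (hasDerivAt_integral_of_dominated_loc_of_deriv_le (bound := fun _ => C')
      (Ioo_mem_nhds ht.1 ht.2) ?_ ?_ ?_ ?_ ?_ ?_).2
    · exact Filter.eventually_of_mem (Ioo_mem_nhds ht.1 ht.2) fun s hs =>
        (slice_continuous G hG ⟨hs.1.le, hs.2.le⟩).aestronglyMeasurable
    · exact (slice_continuous G hG htI).continuousOn.integrableOn_compact isCompact_Icc
    · exact (slice_continuous G' hG' htI).aestronglyMeasurable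
    · exact (ae_restrict_iff' measurableSet_Icc).2 (Filter.Eventually.of_forall fun x hx s hs =>
        hC' (s, x) ⟨⟨hs.1.le, hs.2.le⟩, hx⟩)
    · exact integrableOn_const (C := C') hfin.ne
    · exact Filter.Eventually.of_forall fun x s hs => hGt x s hs
  -- sign of the derivative
  have hsign : ∀ t ∈ Icc (0 : ℝ) T, ∫ x in Icc (0 : R3) 1, G' t x ≤ 0 := by
    intro t ht
    have hdvt : ∀ x, HasFDerivAt (v t) (dv t x) x := fun x => (hder t ht x).2.1
    have key := energy_identity ν (v t) (π t) (dv t) (ddv t) (dπ t) hdvt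
      (fun x => (hder t ht x).2.2.1) (fun x => (hder t ht x).2.2.2) (hper t ht).1 (hper t ht).2
      (slice_continuous dv hcdv ht) (slice_continuous ddv hcddv ht) (slice_continuous dπ hcdπ ht)
      (fun x => (heq t ht x).2) (c t • (Pi.single 0 1 : R3))
    have e1 : ∀ x, G' t x = ∑ i, 2 * (v t x i - (c t • (Pi.single 0 1 : R3)) i) *
        (-(dv t x (v t x)) i - dπ t x (Pi.single i 1)
          + ν * ∑ j, ddv t x (Pi.single j 1) (Pi.single j 1) i) := by
      intro x
      rw [hG'def]
      apply Finset.sum_congr rfl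
      intro i _
      have := congrFun (heq t ht x).1 i
      simp only [Pi.add_apply, Pi.smul_apply, smul_eq_mul, Finset.sum_apply] at this
      simp only [Pi.smul_apply, smul_eq_mul]
      congr 1
      linarith
    have hcdvt := slice_continuous dv hcdv ht
    have hB : Continuous fun x => 2 * ν * ∑ i, ∑ j, (dv t x (Pi.single j 1) i) ^ 2 := by fun_prop
    have hA : Continuous (G' t) := slice_continuous G' hG' ht
    have hsplit : ∫ x in Icc (0 : R3) 1, (G' t x + 2 * ν * ∑ i, ∑ j, (dv t x (Pi.single j 1) i) ^ 2) = 0 := by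
      rw [← key]
      apply setIntegral_congr_fun measurableSet_Icc
      intro x _
      simp only [e1 x]
    rw [integral_add (hA.continuousOn.integrableOn_compact isCompact_Icc)
      (hB.continuousOn.integrableOn_compact isCompact_Icc)] at hsplit
    have hnn : 0 ≤ ∫ x in Icc (0 : R3) 1, 2 * ν * ∑ i, ∑ j, (dv t x (Pi.single j 1) i) ^ 2 := by
      apply integral_nonneg
      intro x
      have : 0 ≤ ∑ i, ∑ j, (dv t x (Pi.single j 1) i) ^ 2 :=
        Finset.sum_nonneg fun i _ => Finset.sum_nonneg fun j _ => sq_nonneg _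
      positivity
    linarith
  -- conclusion: energy vanishes
  intro t ht x
  rcases eq_or_lt_of_le ht.1 with h0 | htpos
  · subst h0
    rw [hinit x, hc0]; simp
  have hTpos : 0 < T := lt_of_lt_of_le htpos ht.2
  have hanti : AntitoneOn (fun t => ∫ x in Icc (0 : R3) 1, G t x) (Icc 0 T) := by
    apply antitoneOn_of_deriv_nonpos (convex_Icc 0 T) hEcont
    · intro s hs
      rw [interior_Icc] at hs
      exact (hEder s hs).differentiableAt.differentiableWithinAt
    · intro s hs
      rw [interior_Icc] at hs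
      rw [(hEder s hs).deriv]
      exact hsign s ⟨hs.1.le, hs.2.le⟩
  have hE0 : ∫ x in Icc (0 : R3) 1, G 0 x = 0 := by
    have : ∀ x, G 0 x = 0 := by
      intro x; rw [hGdef]; simp [hinit x, hc0]
    simp [this]
  have hGnn : ∀ s y, 0 ≤ G s y := by
    intro s y; rw [hGdef]; exact Finset.sum_nonneg fun i _ => sq_nonneg _
  have hEt : ∫ x in Icc (0 : R3) 1, G t x = 0 := by
    have h1 := hanti ⟨le_refl 0, hTpos.le⟩ ht ht.1
    simp only [hE0] at h1
    exact le_antisymm h1 (integral_nonneg fun y => hGnn t y)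
  have hGc : Continuous (G t) := slice_continuous G hG ht
  have hae : G t =ᵐ[volume.restrict (Icc (0 : R3) 1)] 0 :=
    (setIntegral_eq_zero_iff_of_nonneg_ae (Filter.Eventually.of_forall fun y => hGnn t y)
      (hGc.continuousOn.integrableOn_compact isCompact_Icc)).1 hEt
  have hopen : IsOpen (univ.pi fun _ : Fin 3 => Ioo (0 : ℝ) 1) := isOpen_set_pi finite_univ fun _ _ => isOpen_Ioo
  have hsub : (univ.pi fun _ : Fin 3 => Ioo (0 : ℝ) 1) ⊆ Icc (0 : R3) 1 := by
    intro y hy
    exact ⟨fun i => (hy i (mem_univ i)).1.le, fun i => (hy i (mem_univ i)).2.le⟩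
  have hae2 : G t =ᵐ[volume.restrict (univ.pi fun _ : Fin 3 => Ioo (0 : ℝ) 1)] 0 :=
    ae_restrict_of_ae_restrict_of_subset hsub hae
  have heqOn : EqOn (G t) 0 (univ.pi fun _ : Fin 3 => Ioo (0 : ℝ) 1) :=
    Measure.eqOn_open_of_ae_eq hae2 hopen hGc.continuousOn continuousOn_const
  have hcl : closure (univ.pi fun _ : Fin 3 => Ioo (0 : ℝ) 1) = Icc (0 : R3) 1 := by
    rw [closure_pi_set]
    simp only [closure_Ioo (zero_ne_one' ℝ)]
    rw [← pi_univ_Icc]
    rfl
  have hzero : ∀ y ∈ Icc (0 : R3) 1, G t y = 0 := by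
    intro y hy
    have : EqOn (G t) 0 (closure (univ.pi fun _ : Fin 3 => Ioo (0 : ℝ) 1)) :=
      heqOn.closure hGc continuous_const
    exact this (hcl ▸ hy)
  -- periodicity
  obtain ⟨y, hy, hxy⟩ := periodic_reduce (v t) (hper t ht).1 x
  have hy0 := hzero y hy
  rw [hGdef] at hy0
  simp only at hy0
  have hall : ∀ i, v t y i - c t * (Pi.single 0 1 : R3) i = 0 := by
    intro i
    have := (Finset.sum_eq_zero_iff_of_nonneg (fun i _ => sq_nonneg _)).1 hy0 i (Finset.mem_univ i)
    exact pow_eq_zero_iff (two_ne_zero) |>.1 this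
  rw [hxy]
  ext i
  have := hall i
  simp only [Pi.smul_apply, smul_eq_mul]
  linarith



theorem clm_eq_sum' (L : R3 →L[ℝ] ℝ) (y : R3) :
    L y = ∑ j, y j * L (Pi.single j 1) := by
  have : y = ∑ j, y j • (Pi.single j (1 : ℝ) : R3) := by
    ext l
    simp [Finset.sum_apply, Pi.single_apply]
  conv_lhs => rw [this]
  simp [map_sum]

theorem unique_pressure (ν : ℝ) (hν : 0 ≤ ν) (c c' : ℝ → ℝ) (T : ℝ) (hT : 0 < T) (hc0 : c 0 = 0)
    (hc : ∀ t, HasDerivAt c (c' t) t) (hc' : Continuous c')
    (v : ℝ → R3 → R3) (π : ℝ → R3 → ℝ)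
    (h : IsClassicalSolutionCLM ν (fun t _ => c' t • (Pi.single 0 1 : R3)) T v π) :
    ∀ t ∈ Icc (0 : ℝ) T, ∀ x, π t x = 0 := by
  have hv := unique_velocity ν hν c c' T hc0 hc hc' v π h
  obtain ⟨vt, dv, ddv, dπ, hder, hcv, hcvt, hcdv, hcddv, hcπ, hcdπ, hper, heq, hinit, hmean⟩ := h
  intro t ht x
  have hfun : v t = fun _ => c t • (Pi.single 0 1 : R3) := funext (hv t ht)
  have hdv0 : ∀ y, dv t y = 0 := by
    intro y
    have h1 := (hder t ht y).2.1
    rw [hfun] at h1
    exact h1.unique (hasFDerivAt_const _ y)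
  have hddv0 : ∀ y, ddv t y = 0 := by
    intro y
    have h1 := (hder t ht y).2.2.1
    have : dv t = fun _ => 0 := funext hdv0
    rw [this] at h1
    exact h1.unique (hasFDerivAt_const _ y)
  have hvt : ∀ y, vt t y = c' t • (Pi.single 0 1 : R3) := by
    intro y
    have h1 := (hder t ht y).1
    have h2 : HasDerivWithinAt (fun s => c s • (Pi.single 0 1 : R3)) (vt t y) (Icc 0 T) t :=
      h1.congr (fun s hs => (hv s hs y).symm) (hv t ht y).symm
    have h3 : HasDerivWithinAt (fun s => c s • (Pi.single 0 1 : R3)) (c' t • (Pi.single 0 1 : R3))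
        (Icc 0 T) t := ((hc t).smul_const _).hasDerivWithinAt
    exact UniqueDiffWithinAt.eq_deriv _ (uniqueDiffOn_Icc hT t ht) h2 h3
  have hdπ0 : ∀ y, dπ t y = 0 := by
    intro y
    have h1 := (heq t ht y).1
    rw [hvt y, hdv0 y, hddv0 y] at h1
    simp only [zero_apply, add_zero, Finset.sum_const_zero, smul_zero] at h1
    have h2 : ∀ i : Fin 3, dπ t y (Pi.single i 1) = 0 := by
      intro i
      have := congrFun h1 i
      simp only [Pi.add_apply] at this
      linarith
    ext z
    rw [clm_eq_sum' (dπ t y) z]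
    simp [h2]
  have hconst : ∀ y, π t y = π t x := by
    intro y
    apply is_const_of_fderiv_eq_zero (𝕜 := ℝ)
    · exact fun z => (hder t ht z).2.2.2.differentiableAt
    · intro z
      rw [(hder t ht z).2.2.2.fderiv, hdπ0 z]
  have hm := hmean t ht
  simp only [hconst] at hm
  rw [setIntegral_const] at hm
  have hvol : volume.real (Icc (0 : R3) 1) = 1 := by
    rw [Measure.real, Real.volume_Icc_pi_toReal cube_le]
    simp
  rw [hvol] at hm
  simpa using hm

end Vale.Agent.Lib.P113
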